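import Vale.Agent.P207.H476.Iso2

/-!
# P207 (helper476): isometries and the unit tangent bundle, volume, Liouville measure, entropies
-/

open scoped Manifold ContDiff ENNReal Topology
open Bundle MeasureTheory Set Filter

noncomputable section

set_option maxSynthPendingDepth 3
set_option linter.unusedSectionVars false

namespace Vale.Agent.P207.H476

open Vale.Agent.P255 (RMetric coefIn Gam Riem IsGeo Metric IsGeodesic IsGeodesicOn toMetric coefL
  trans cc chris chrisB chrisB_apply IsMetricOn geo)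

/-! ### entropies and conjugacies -/

section Ent

variable {X Y : Type} {T : X → X} {S : Y → Y} {Ψ : X → Y}

theorem iterate_conj (h : ∀ x, S (Ψ x) = Ψ (T x)) (n : ℕ) (x : X) : S^[n] (Ψ x) = Ψ (T^[n] x) := by
  induction n generalizing x with
  | zero => rfl
  | succ n ih => rw [Function.iterate_succ_apply, Function.iterate_succ_apply, h, ih]

theorem ksEntropy_map_le [MeasurableSpace X] [MeasurableSpace Y] (h : ∀ x, S (Ψ x) = Ψ (T x))
    (hΨ : Measurable Ψ) (hS : Measurable S) (μ : Measure X) :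
    ksEntropy (μ.map Ψ) S ≤ ksEntropy μ T := by
  unfold ksEntropy
  refine iSup_le fun k => iSup_le fun f => iSup_le fun hf => ?_
  refine le_trans (le_of_eq ?_) (le_iSup_of_le k (le_iSup_of_le (f ∘ Ψ)
    (le_iSup_of_le (hf.comp hΨ) le_rfl)))
  have h1 : ∀ n : ℕ, shannon (μ.map Ψ) (name S f n) = shannon μ (name T (f ∘ Ψ) n) := by
    intro n
    unfold shannon
    refine Finset.sum_congr rfl fun a _ => ?_
    have hm : Measurable (name S f n) := measurable_pi_iff.2 fun i => hf.comp (hS.iterate _)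
    have e : Ψ ⁻¹' (name S f n ⁻¹' {a}) = name T (f ∘ Ψ) n ⁻¹' {a} := by
      ext x
      have e1 : name S f n (Ψ x) = name T (f ∘ Ψ) n x := by
        funext i
        simp only [name, Function.comp]
        rw [iterate_conj h]
      simp only [mem_preimage, e1]
    rw [measureReal_def, Measure.map_apply hΨ (hm (measurableSet_singleton a)), e,
      ← measureReal_def]
  simp only [h1]

theorem ksEntropy_conj [MeasurableSpace X] [MeasurableSpace Y] (h : ∀ x, S (Ψ x) = Ψ (T x))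
    {Φ : Y → X} (hl : ∀ x, Φ (Ψ x) = x) (hr : ∀ y, Ψ (Φ y) = y) (hΨ : Measurable Ψ)
    (hΦ : Measurable Φ) (hT : Measurable T) (hS : Measurable S) (μ : Measure X) :
    ksEntropy (μ.map Ψ) S = ksEntropy μ T := by
  refine le_antisymm (ksEntropy_map_le h hΨ hS μ) ?_
  have h' : ∀ y, T (Φ y) = Φ (S y) := by
    intro y
    have h2 := h (Φ y)
    rw [hr] at h2
    rw [h2, hl]
  have h1 := ksEntropy_map_le h' hΦ hT (μ.map Ψ)
  rw [Measure.map_map hΦ hΨ] at h1
  have e : Φ ∘ Ψ = id := funext hl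
  rwa [e, Measure.map_id] at h1

theorem topEntropy_le_of_semiconj [TopologicalSpace X] [TopologicalSpace Y]
    (h : ∀ x, S (Ψ x) = Ψ (T x)) (hc : Continuous Ψ) (hs : Function.Surjective Ψ) :
    topEntropy S ≤ topEntropy T := by
  unfold topEntropy
  refine iSup_le fun k => iSup_le fun U => iSup_le fun hU => iSup_le fun hcov => ?_
  refine le_trans (le_of_eq ?_) (le_iSup_of_le k (le_iSup_of_le (fun i => Ψ ⁻¹' U i)
    (le_iSup_of_le (fun i => (hU i).preimage hc) (le_iSup_of_le ?_ le_rfl))))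
  · have h1 : ∀ n : ℕ, coverNum S U n = coverNum T (fun i => Ψ ⁻¹' U i) n := by
      intro n
      unfold coverNum
      congr 1
      ext m
      constructor
      · rintro ⟨W, hW, hx⟩
        refine ⟨W, hW, fun x => ?_⟩
        obtain ⟨w, hw, hw2⟩ := hx (Ψ x)
        refine ⟨w, hw, fun i => ?_⟩
        have := hw2 i
        rw [iterate_conj h] at this
        exact this
      · rintro ⟨W, hW, hx⟩
        refine ⟨W, hW, fun y => ?_⟩
        obtain ⟨x, rfl⟩ := hs y
        obtain ⟨w, hw, hw2⟩ := hx x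
        refine ⟨w, hw, fun i => ?_⟩
        have := hw2 i
        rw [iterate_conj h]
        exact this
    simp only [h1]
  · rw [← preimage_iUnion, hcov, preimage_univ]

theorem topEntropy_conj [TopologicalSpace X] [TopologicalSpace Y]
    (h : ∀ x, S (Ψ x) = Ψ (T x)) {Φ : Y → X} (hl : ∀ x, Φ (Ψ x) = x) (hr : ∀ y, Ψ (Φ y) = y)
    (hc : Continuous Ψ) (hc' : Continuous Φ) : topEntropy S = topEntropy T := by
  refine le_antisymm (topEntropy_le_of_semiconj h hc fun y => ⟨Φ y, hr y⟩)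
    (topEntropy_le_of_semiconj (Ψ := Φ) (fun y => ?_) hc' fun x => ⟨Ψ x, hl x⟩)
  have h2 := h (Φ y)
  rw [hr] at h2
  rw [h2, hl]

end Ent

variable {n : ℕ} {M : Type} [TopologicalSpace M] [ChartedSpace (EV n) M]
  [IsManifold 𝓘(ℝ, EV n) ∞ M]

/-! ### tangent maps -/

section Tan

/-- the derivative of `ψ` at the point `x` -/
def Dp (ψ : Dfo n M) (x : M) : EV n →L[ℝ] EV n :=
  fderiv ℝ (rep ψ.h x (ψ.h x)) (chartAt (EV n) x x)

/-- the tangent map -/
def TB (ψ : Dfo n M) (p : TangentBundle 𝓘(ℝ, EV n) M) : TangentBundle 𝓘(ℝ, EV n) M :=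
  ⟨ψ.h p.1, Dp ψ p.1 p.2⟩

theorem chT_TB (ψ : Dfo n M) (a b : M) {p : TangentBundle 𝓘(ℝ, EV n) M}
    (ha : p.1 ∈ (chartAt (EV n) a).source) (hb : ψ.h p.1 ∈ (chartAt (EV n) b).source) :
    chT b (TB ψ p) = (rep ψ.h a b (chT a p).1, fderiv ℝ (rep ψ.h a b) (chT a p).1 (chT a p).2) := by
  have hx : p.1 ∈ (chartAt (EV n) p.1).source := mem_chart_source _ _
  have e : (chartAt (EV n) p.1).symm (chartAt (EV n) p.1 p.1) = p.1 :=
    (chartAt (EV n) p.1).left_inv hx
  have ea : (chartAt (EV n) a).symm (chartAt (EV n) a p.1) = p.1 := (chartAt (EV n) a).left_inv ha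
  have et : trans (EV n) p.1 a (chartAt (EV n) p.1 p.1) = chartAt (EV n) a p.1 := by
    unfold P255.trans
    rw [e]
  have hu : chartAt (EV n) p.1 p.1 ∈ (chartAt (EV n) p.1).target := mem_chart_target _ _
  have h1 := fderiv_rep_trans_left ψ.sm p.1 a b hu (by rw [e]; exact ha) (by rw [e]; exact hb)
  have h2 := fderiv_rep_trans_right ψ.sm p.1 (ψ.h p.1) b hu
    (by rw [e]; exact mem_chart_source _ _) (by rw [e]; exact hb)
  rw [et] at h1
  refine Prod.ext ?_ ?_
  · change chartAt (EV n) b (ψ.h p.1) = chartAt (EV n) b (ψ.h ((chartAt (EV n) a).symm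
      (chartAt (EV n) a p.1)))
    rw [ea]
  · have e3 : rep ψ.h p.1 (ψ.h p.1) (chartAt (EV n) p.1 p.1) =
        chartAt (EV n) (ψ.h p.1) (ψ.h p.1) := by
      unfold rep
      rw [e]
    rw [e3] at h2
    have h3 := congrArg (fun L : EV n →L[ℝ] EV n => L p.2) (h2.symm.trans h1)
    exact h3

theorem continuous_TB (ψ : Dfo n M) : Continuous (TB ψ) := by
  rw [continuous_iff_continuousAt]
  intro p
  have ha : p.1 ∈ (chartAt (EV n) p.1).source := mem_chart_source _ _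
  set b := ψ.h p.1 with hbd
  have hb : ψ.h p.1 ∈ (chartAt (EV n) b).source := mem_chart_source _ _
  have hu : (chT p.1 p).1 ∈ (chartAt (EV n) p.1).target := mem_chart_target _ _
  have e : (chartAt (EV n) p.1).symm (chT p.1 p).1 = p.1 := (chartAt (EV n) p.1).left_inv ha
  have hs : ContDiffAt ℝ ∞ (rep ψ.h p.1 b) (chT p.1 p).1 :=
    ψ.sm.smooth p.1 b _ hu (by rw [e]; exact hb)
  have h1 : ContinuousAt (fun y : EV n × EV n =>
      (rep ψ.h p.1 b y.1, fderiv ℝ (rep ψ.h p.1 b) y.1 y.2)) (chT p.1 p) := by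
    have h2 : ContinuousAt (fun y : EV n × EV n => rep ψ.h p.1 b y.1) (chT p.1 p) :=
      ContinuousAt.comp (g := rep ψ.h p.1 b) hs.continuousAt continuousAt_fst
    have h3 : ContinuousAt (fun y : EV n × EV n => fderiv ℝ (rep ψ.h p.1 b) y.1) (chT p.1 p) :=
      ContinuousAt.comp (g := fderiv ℝ (rep ψ.h p.1 b))
        (hs.fderiv_right (m := ∞) (by simp)).continuousAt continuousAt_fst
    exact h2.prodMk (h3.clm_apply continuousAt_snd)
  have h4 : ContinuousAt (fun q : TangentBundle 𝓘(ℝ, EV n) M => chTs b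
      ((rep ψ.h p.1 b (chT p.1 q).1, fderiv ℝ (rep ψ.h p.1 b) (chT p.1 q).1 (chT p.1 q).2))) p := by
    refine ContinuousAt.comp (g := chTs b) (f := fun q : TangentBundle 𝓘(ℝ, EV n) M =>
      ((rep ψ.h p.1 b (chT p.1 q).1, fderiv ℝ (rep ψ.h p.1 b) (chT p.1 q).1 (chT p.1 q).2)))
      (continuousAt_chTs b ?_)
      (ContinuousAt.comp (g := fun y : EV n × EV n =>
        (rep ψ.h p.1 b y.1, fderiv ℝ (rep ψ.h p.1 b) y.1 y.2)) h1 (continuousAt_chT p.1 ha))
    exact rep_mem p.1 b (by rw [e]; exact hb)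
  refine h4.congr ?_
  have h5 : ∀ᶠ q : TangentBundle 𝓘(ℝ, EV n) M in 𝓝 p, q.1 ∈ (chartAt (EV n) p.1).source :=
    continuous_pt_TB.continuousAt.preimage_mem_nhds ((chartAt (EV n) p.1).open_source.mem_nhds ha)
  have h6 : ∀ᶠ q : TangentBundle 𝓘(ℝ, EV n) M in 𝓝 p, ψ.h q.1 ∈ (chartAt (EV n) b).source :=
    (ψ.h.continuous.comp continuous_pt_TB).continuousAt.preimage_mem_nhds
      ((chartAt (EV n) b).open_source.mem_nhds hb)
  filter_upwards [h5, h6] with q hq1 hq2
  rw [← chT_TB ψ p.1 b hq1 hq2]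
  exact chTs_chT b hq2

theorem TB_symm_TB (ψ : Dfo n M) (p : TangentBundle 𝓘(ℝ, EV n) M) : TB ψ.symm (TB ψ p) = p := by
  have ha : p.1 ∈ (chartAt (EV n) p.1).source := mem_chart_source _ _
  set b := ψ.h p.1 with hbd
  have hb : ψ.h p.1 ∈ (chartAt (EV n) b).source := mem_chart_source _ _
  have hb' : (TB ψ p).1 ∈ (chartAt (EV n) b).source := hb
  have hx : ψ.symm.h (TB ψ p).1 = p.1 := ψ.h.symm_apply_apply p.1
  have e : (chartAt (EV n) p.1).symm (chT p.1 p).1 = p.1 := (chartAt (EV n) p.1).left_inv ha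
  have h1 := chT_TB ψ p.1 b ha hb
  have h2 := chT_TB ψ.symm b p.1 (p := TB ψ p) hb' (by rw [hx]; exact ha)
  rw [h1] at h2
  have h3 := ψ.fderiv_left p.1 b (u := (chT p.1 p).1) (mem_chart_target _ _) (by rw [e]; exact hb)
  have h4 := congrArg (fun L : EV n →L[ℝ] EV n => L (chT p.1 p).2) h3
  have h5 : chT p.1 (TB ψ.symm (TB ψ p)) = chT p.1 p := by
    rw [h2]
    refine Prod.ext ?_ h4
    change rep ψ.h.symm b p.1 (rep ψ.h p.1 b (chT p.1 p).1) = (chT p.1 p).1
    unfold rep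
    rw [e, (chartAt (EV n) b).left_inv hb, ψ.h.symm_apply_apply]
    rfl
  have h6 : (TB ψ.symm (TB ψ p)).1 ∈ (chartAt (EV n) p.1).source := by
    change ψ.symm.h (TB ψ p).1 ∈ _
    rw [hx]; exact ha
  rw [← chTs_chT p.1 h6, h5, chTs_chT p.1 ha]

variable {g₁ g₂ : RMetric (EV n) M} {ψ : Dfo n M}

theorem inner_TB (h : IsIso (mt g₁) (mt g₂) ψ) (p : TangentBundle 𝓘(ℝ, EV n) M) :
    g₂.inner (TB ψ p).1 (TB ψ p).2 (TB ψ p).2 = g₁.inner p.1 p.2 p.2 := by
  have ha : p.1 ∈ (chartAt (EV n) p.1).source := mem_chart_source _ _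
  have hb : ψ.h p.1 ∈ (chartAt (EV n) (ψ.h p.1)).source := mem_chart_source _ _
  have e : (chartAt (EV n) p.1).symm (chT p.1 p).1 = p.1 := (chartAt (EV n) p.1).left_inv ha
  rw [← inner_chT g₁ p.1 ha, ← inner_chT g₂ (ψ.h p.1) (p := TB ψ p) hb, chT_TB ψ p.1 _ ha hb]
  exact h p.1 (ψ.h p.1) (chT p.1 p).1 (mem_chart_target _ _) (by rw [e]; exact hb) _ _

/-- the map of the unit tangent bundles -/
def utMap (h : IsIso (mt g₁) (mt g₂) ψ) (p : UT g₁) : UT g₂ :=
  ⟨TB ψ p.1, (inner_TB h p.1).trans p.2⟩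

theorem utMap_symm (h : IsIso (mt g₁) (mt g₂) ψ) (p : UT g₁) :
    utMap h.symm (utMap h p) = p := Subtype.ext (TB_symm_TB ψ p.1)

theorem utMap_symm' (h : IsIso (mt g₁) (mt g₂) ψ) (p : UT g₂) :
    utMap h (utMap h.symm p) = p := Subtype.ext (TB_symm_TB ψ.symm p.1)

theorem continuous_utMap (h : IsIso (mt g₁) (mt g₂) ψ) : Continuous (utMap h) :=
  Continuous.subtype_mk ((continuous_TB ψ).comp continuous_subtype_val) _

theorem utMap_pt (h : IsIso (mt g₁) (mt g₂) ψ) (p : UT g₁) : (utMap h p).pt = ψ.h p.pt := rfl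

/-- the velocity of `ψ ∘ γ` -/
theorem stv_comp {γ : ℝ → M} {g : RMetric (EV n) M} (hγ : IsGeodesic (mt g) γ) (t : ℝ) :
    stv (fun s => ψ.h (γ s)) t = TB ψ (stv γ t) := by
  have ha : γ t ∈ (chartAt (EV n) (γ t)).source := mem_chart_source _ _
  have hb : ψ.h (γ t) ∈ (chartAt (EV n) (ψ.h (γ t))).source := mem_chart_source _ _
  have e : (chartAt (EV n) (γ t)).symm (cc (E := EV n) γ (γ t) t) = γ t :=
    (chartAt (EV n) (γ t)).left_inv ha
  have hd := (hγ.eqn (γ t) t (mem_univ _) ha).1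
  have hr : DifferentiableAt ℝ (rep ψ.h (γ t) (ψ.h (γ t))) (cc (E := EV n) γ (γ t) t) :=
    ψ.sm.differentiableAt ((chartAt (EV n) (γ t)).map_source ha) (by rw [e]; exact hb)
  have h1 := hr.hasFDerivAt.comp_hasDerivAt t hd.hasDerivAt
  have h2 : cc (E := EV n) (fun s => ψ.h (γ s)) (ψ.h (γ t)) =ᶠ[𝓝 t]
      (rep ψ.h (γ t) (ψ.h (γ t))) ∘ (cc (E := EV n) γ (γ t)) := by
    filter_upwards [(hγ.continuousAt t).eventually
      ((chartAt (EV n) (γ t)).open_source.mem_nhds ha)] with s hs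
    simp only [Function.comp, rep, P255.cc]
    rw [(chartAt (EV n) (γ t)).left_inv hs]
  have h3 := (h1.congr_of_eventuallyEq h2).deriv
  exact congrArg (fun v : TangentSpace 𝓘(ℝ, EV n) (ψ.h (γ t)) =>
    (⟨ψ.h (γ t), v⟩ : TangentBundle 𝓘(ℝ, EV n) M)) h3

section Flow

variable [CompactSpace M] [T2Space M] {φ₁ : ℝ → UT g₁ → UT g₁} {φ₂ : ℝ → UT g₂ → UT g₂}

/-- isometries conjugate the geodesic flows -/
theorem flow_conj (h : IsIso (mt g₁) (mt g₂) ψ) (h₁ : IsGeoFlow g₁ φ₁) (h₂ : IsGeoFlow g₂ φ₂)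
    (t : ℝ) (p : UT g₁) : φ₂ t (utMap h p) = utMap h (φ₁ t p) := by
  have hγ := P255.isGeodesic_geo (mt g₁) p.1.1 (p.1.2 : EV n)
  have hγ2 := isGeodesic_comp h hγ
  apply Subtype.ext
  rw [h₂.val_eq t (utMap h p)]
  have h3 : stv (n := n) (fun s => ψ.h (geo (mt g₁) p.1.1 (p.1.2 : EV n) s)) 0 = (utMap h p).1 := by
    rw [stv_comp hγ, stv_geo_zero g₁ p.1]
    rfl
  have h4 := eq_geo hγ2 h3
  rw [← h4, stv_comp hγ, ← h₁.val_eq t p]
  rfl

end Flow

end Tan

/-! ### the volume -/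

section Vol

variable {g₁ g₂ : RMetric (EV n) M} {ψ : Dfo n M}

theorem dens_iso (h : IsIso (mt g₁) (mt g₂) ψ) (a b : M) {u : EV n}
    (hu : u ∈ (chartAt (EV n) a).target)
    (hb : ψ.h ((chartAt (EV n) a).symm u) ∈ (chartAt (EV n) b).source) :
    dens g₁ a u = |(fderiv ℝ (rep ψ.h a b) u).det| * dens g₂ b (rep ψ.h a b u) := by
  unfold dens
  have e : coefL g₁ a u = (coefL g₂ b (rep ψ.h a b u)).bilinearComp (fderiv ℝ (rep ψ.h a b) u)
      (fderiv ℝ (rep ψ.h a b) u) := by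
    ext v w
    exact (h a b u hu hb v w).symm
  rw [e, gramE_comp_det, Real.sqrt_mul (sq_nonneg _), Real.sqrt_sq_eq_abs]

variable [MeasurableSpace M] [BorelSpace M]

theorem volIn_iso (h : IsIso (mt g₁) (mt g₂) ψ) (a b : M) {s : Set M} (hs : MeasurableSet s)
    (ha : s ⊆ (chartAt (EV n) a).source) (hb : ψ.h '' s ⊆ (chartAt (EV n) b).source) :
    volIn g₂ b (ψ.h '' s) = volIn g₁ a s := by
  unfold volIn
  have e : chartAt (EV n) b '' (ψ.h '' s) = rep ψ.h a b '' (chartAt (EV n) a '' s) := by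
    rw [image_image, image_image]
    refine image_congr fun x hx => ?_
    simp only [rep, (chartAt (EV n) a).left_inv (ha hx)]
  have hinj : InjOn (rep ψ.h a b) (chartAt (EV n) a '' s) := by
    rintro _ ⟨x, hx, rfl⟩ _ ⟨y, hy, rfl⟩ hxy
    simp only [rep, (chartAt (EV n) a).left_inv (ha hx), (chartAt (EV n) a).left_inv (ha hy)] at hxy
    rw [ψ.h.injective ((chartAt (EV n) b).injOn (hb ⟨x, hx, rfl⟩) (hb ⟨y, hy, rfl⟩) hxy)]
  rw [e, lintegral_image_eq_lintegral_abs_det_fderiv_mul volume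
    (measurableSet_chart_image a hs ha) (f' := fun u => fderiv ℝ (rep ψ.h a b) u) ?_ hinj]
  · refine setLIntegral_congr_fun (measurableSet_chart_image a hs ha) ?_
    rintro _ ⟨x, hx, rfl⟩
    have hu := (chartAt (EV n) a).map_source (ha hx)
    have hb' : ψ.h ((chartAt (EV n) a).symm (chartAt (EV n) a x)) ∈ (chartAt (EV n) b).source := by
      rw [(chartAt (EV n) a).left_inv (ha hx)]; exact hb ⟨x, hx, rfl⟩
    simp only
    rw [dens_iso h a b hu hb', ENNReal.ofReal_mul (abs_nonneg _)]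
  · rintro _ ⟨x, hx, rfl⟩
    have hu := (chartAt (EV n) a).map_source (ha hx)
    have hb' : ψ.h ((chartAt (EV n) a).symm (chartAt (EV n) a x)) ∈ (chartAt (EV n) b).source := by
      rw [(chartAt (EV n) a).left_inv (ha hx)]; exact hb ⟨x, hx, rfl⟩
    exact (ψ.sm.differentiableAt hu hb').hasFDerivAt.hasFDerivWithinAt

variable [CompactSpace M] [T2Space M]

/-- an isometry maps the volume to the volume -/
theorem isRiemVol_map (h : IsIso (mt g₁) (mt g₂) ψ) {μ : Measure M} (hμ : IsRiemVol g₁ μ) :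
    IsRiemVol g₂ (μ.map ψ.h) := by
  rw [isRiemVol_iff] at hμ ⊢
  intro b s hs hb
  obtain ⟨k, c, hc⟩ := exists_chart_cover n M
  have hm : Measurable ψ.h := ψ.h.continuous.measurable
  rw [Measure.map_apply hm hs]
  have h2 : ψ.h ⁻¹' s = ⋃ i, ψ.h ⁻¹' s ∩ piece (n := n) c i := by
    rw [← inter_iUnion, iUnion_piece hc, inter_univ]
  have h3 : Pairwise (Function.onFun Disjoint fun i => ψ.h ⁻¹' s ∩ piece (n := n) c i) :=
    fun i j hij => (disjoint_piece c hij).mono inter_subset_right inter_subset_right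
  have hms : ∀ i, MeasurableSet (ψ.h ⁻¹' s ∩ piece (n := n) c i) :=
    fun i => (hm hs).inter (measurableSet_piece c i)
  rw [h2, measure_iUnion h3 hms]
  have h4 : ∀ i, μ (ψ.h ⁻¹' s ∩ piece (n := n) c i) =
      volIn g₂ b (ψ.h '' (ψ.h ⁻¹' s ∩ piece (n := n) c i)) := by
    intro i
    rw [volIn_iso h (c i) b (hms i) (inter_subset_right.trans (piece_subset c i))
      (by rintro _ ⟨x, hx, rfl⟩; exact hb hx.1)]
    exact hμ (c i) _ (hms i) (inter_subset_right.trans (piece_subset c i))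
  simp only [h4]
  have h5 : s = ⋃ i, ψ.h '' (ψ.h ⁻¹' s ∩ piece (n := n) c i) := by
    rw [← image_iUnion, ← h2, image_preimage_eq s ψ.h.surjective]
  change _ = volIn g₂ b s
  conv_rhs => rw [h5]
  rw [volIn_iUnion g₂ b]
  · intro i
    exact (ψ.h.measurableEmbedding.measurableSet_image).2 (hms i)
  · intro i j hij
    rw [Function.onFun, disjoint_image_iff ψ.h.injective]
    exact h3 hij
  · rintro i _ ⟨x, hx, rfl⟩
    exact hb hx.1

end Vol

/-! ### the Liouville measure and the entropies -/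

section Liou

variable {g₁ g₂ : RMetric (EV n) M} {ψ : Dfo n M}

theorem innerB_iso (h : IsIso (mt g₁) (mt g₂) ψ) (x : M) :
    innerB g₁ x = (innerB g₂ (ψ.h x)).bilinearComp (Dp ψ x) (Dp ψ x) := by
  have ha : x ∈ (chartAt (EV n) x).source := mem_chart_source _ _
  have e : (chartAt (EV n) x).symm (chartAt (EV n) x x) = x := (chartAt (EV n) x).left_inv ha
  ext v w
  rw [innerB_eq_coefL, innerB_eq_coefL]
  have h1 := h x (ψ.h x) (chartAt (EV n) x x) (mem_chart_target _ _)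
    (by rw [e]; exact mem_chart_source _ _) v w
  have e2 : rep ψ.h x (ψ.h x) (chartAt (EV n) x x) = chartAt (EV n) (ψ.h x) (ψ.h x) := by
    unfold rep
    rw [e]
  rw [e2] at h1
  exact h1.symm

theorem Dp_injective (ψ : Dfo n M) (x : M) : Function.Injective (Dp ψ x) :=
  ψ.injective x (ψ.h x) (mem_chart_target _ _) (by
    rw [(chartAt (EV n) x).left_inv (mem_chart_source _ _)]; exact mem_chart_source _ _)

theorem radial_iso (h : IsIso (mt g₁) (mt g₂) ψ) (a : UT g₂ → ℝ) (x : M) (v : EV n) :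
    radial g₁ (fun p => a (utMap h p)) x v = radial g₂ a (ψ.h x) (Dp ψ x v) := by
  unfold radial
  by_cases hv : v = 0
  · have hv' : Dp ψ x v = 0 := by rw [hv, map_zero]
    refine (dif_pos hv).trans (Eq.symm ?_)
    exact dif_pos hv'
  · have hv' : Dp ψ x v ≠ 0 := fun h0 => hv (Dp_injective ψ x (h0.trans (map_zero _).symm))
    refine (dif_neg hv).trans (Eq.trans ?_ (dif_neg hv').symm)
    refine congrArg a (Subtype.ext ?_)
    have h1 := congrArg (fun B : EV n →L[ℝ] EV n →L[ℝ] ℝ => B v v) (innerB_iso h x)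
    have h2 : g₁.inner x (v : TangentSpace 𝓘(ℝ, EV n) x) (v : TangentSpace 𝓘(ℝ, EV n) x) =
        g₂.inner (ψ.h x) (Dp ψ x v : TangentSpace 𝓘(ℝ, EV n) (ψ.h x))
          (Dp ψ x v : TangentSpace 𝓘(ℝ, EV n) (ψ.h x)) := h1
    change (⟨ψ.h x, Dp ψ x ((Real.sqrt (g₁.inner x (v : TangentSpace 𝓘(ℝ, EV n) x)
      (v : TangentSpace 𝓘(ℝ, EV n) x)))⁻¹ • v)⟩ : TangentBundle 𝓘(ℝ, EV n) M) =
      ⟨ψ.h x, (Real.sqrt (g₂.inner (ψ.h x) (Dp ψ x v : TangentSpace 𝓘(ℝ, EV n) (ψ.h x))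
          (Dp ψ x v : TangentSpace 𝓘(ℝ, EV n) (ψ.h x))))⁻¹ • Dp ψ x v⟩
    rw [h2, map_smul]

theorem sphAvg_iso (h : IsIso (mt g₁) (mt g₂) ψ) (a : UT g₂ → ℝ) (x : M) :
    sphAvg g₁ (fun p => a (utMap h p)) x = sphAvg g₂ a (ψ.h x) := by
  rw [sphAvg_eq, sphAvg_eq, innerB_iso h x,
    ← avgB_comp (innerB g₂ (ψ.h x)) (Dp_injective ψ x) (fun v => radial g₂ a (ψ.h x) v)]
  congr 1
  funext v
  exact radial_iso h a x v

variable [MeasurableSpace M] [BorelSpace M]

/-- an isometry maps the Liouville measure to the Liouville measure -/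
theorem isLiouville_map (h : IsIso (mt g₁) (mt g₂) ψ) {μ : Measure M} {m : Measure (UT g₁)}
    (hm : IsLiouville g₁ μ m) : IsLiouville g₂ (μ.map ψ.h) (m.map (utMap h)) := by
  have hc := continuous_utMap h
  have := hm.1
  refine ⟨Measure.isProbabilityMeasure_map hc.measurable.aemeasurable, fun a ha => ?_⟩
  have e1 : (μ.map ψ.h).real univ = μ.real univ := by
    rw [measureReal_def, Measure.map_apply ψ.h.continuous.measurable MeasurableSet.univ,
      preimage_univ, ← measureReal_def]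
  rw [integral_map hc.measurable.aemeasurable ha.measurable.aestronglyMeasurable,
    hm.2 (fun p => a (utMap h p)) (ha.comp hc), e1,
    ψ.h.measurableEmbedding.integral_map]
  simp only [sphAvg_iso h]

end Liou

section Main

variable [CompactSpace M] [T2Space M] {g₁ g₂ : RMetric (EV n) M} {ψ : Dfo n M}
  {φ₁ : ℝ → UT g₁ → UT g₁} {φ₂ : ℝ → UT g₂ → UT g₂}

theorem topEntropy_iso (h : IsIso (mt g₁) (mt g₂) ψ) (h₁ : IsGeoFlow g₁ φ₁)
    (h₂ : IsGeoFlow g₂ φ₂) : topEntropy (φ₂ 1) = topEntropy (φ₁ 1) :=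
  topEntropy_conj (Ψ := utMap h) (fun x => flow_conj h h₁ h₂ 1 x) (Φ := utMap h.symm)
    (utMap_symm h) (utMap_symm' h) (continuous_utMap h) (continuous_utMap h.symm)

theorem ksEntropy_iso (h : IsIso (mt g₁) (mt g₂) ψ) (h₁ : IsGeoFlow g₁ φ₁)
    (h₂ : IsGeoFlow g₂ φ₂) (ν : Measure (UT g₁)) :
    ksEntropy (ν.map (utMap h)) (φ₂ 1) = ksEntropy ν (φ₁ 1) :=
  ksEntropy_conj (Ψ := utMap h) (fun x => flow_conj h h₁ h₂ 1 x) (Φ := utMap h.symm)
    (utMap_symm h) (utMap_symm' h) (continuous_utMap h).measurable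
    (continuous_utMap h.symm).measurable (h₁.continuous_right 1).measurable
    (h₂.continuous_right 1).measurable ν

end Main

end Vale.Agent.P207.H476
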