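import Vale.Agent.P207.H476.Iso

/-!
# P207 (helper476): isometries preserve geodesics, curvature, local symmetry
-/

open scoped Manifold ContDiff ENNReal Topology
open Bundle MeasureTheory Set Filter

noncomputable section

set_option maxSynthPendingDepth 3
set_option linter.unusedSectionVars false
set_option linter.unusedVariables false

namespace Vale.Agent.P207.H476

open Vale.Agent.P207.D1
open Vale.Agent.P255 (RMetric coefIn Gam Riem IsGeo Metric IsGeodesic IsGeodesicOn toMetric coefL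
  trans cc chris chrisB chrisB_apply IsMetricOn two_le_infty)

section Coord

variable {E : Type} [NormedAddCommGroup E] [NormedSpace ℝ E] [FiniteDimensional ℝ E]
variable {G : E → E →L[ℝ] E →L[ℝ] ℝ} {U : Set E}

/-- the covariant derivative of the curvature tensor -/
def nR (G : E → E →L[ℝ] E →L[ℝ] ℝ) (u w x y z : E) : E :=
  fderiv ℝ (curvT G) u w x y z + chrisB G u w (curvT G u x y z)
    - curvT G u (chrisB G u w x) y z - curvT G u x (chrisB G u w y) z
    - curvT G u x y (chrisB G u w z)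

theorem nR_trans (h : IsMetricOn G U) {G₂ : E → E →L[ℝ] E →L[ℝ] ℝ} {U₂ : Set E}
    (h₂ : IsMetricOn G₂ U₂) {τ : E → E} {u : E} (hu : u ∈ U) (hu₂ : ∀ᶠ x in 𝓝 u, τ x ∈ U₂)
    (hτ : ∀ᶠ x in 𝓝 u, ContDiffAt ℝ ∞ τ x)
    (hiso : ∀ᶠ x in 𝓝 u, ∀ v w, G₂ (τ x) (fderiv ℝ τ x v) (fderiv ℝ τ x w) = G x v w)
    (w x y z : E) :
    fderiv ℝ τ u (nR G u w x y z) =
      nR G₂ (τ u) (fderiv ℝ τ u w) (fderiv ℝ τ u x) (fderiv ℝ τ u y) (fderiv ℝ τ u z) := by
  have hτ0 := hτ.self_of_nhds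
  have hu₂0 := hu₂.self_of_nhds
  have hd0 : HasFDerivAt τ (fderiv ℝ τ u) u := (hτ0.differentiableAt (by simp)).hasFDerivAt
  have hc1 : ContDiffAt ℝ ∞ (fderiv ℝ τ) u := hτ0.fderiv_right (m := ∞) (by simp)
  have hd1 : HasFDerivAt (fderiv ℝ τ) (fderiv ℝ (fderiv ℝ τ) u) u :=
    (hc1.differentiableAt (by simp)).hasFDerivAt
  have hT : HasFDerivAt (curvT G) (fderiv ℝ (curvT G) u) u :=
    ((contDiffAt_curvT h hu).differentiableAt (by simp)).hasFDerivAt
  have hT₂ : HasFDerivAt (fun p => curvT G₂ (τ p)) ((fderiv ℝ (curvT G₂) (τ u)).comp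
      (fderiv ℝ τ u)) u :=
    HasFDerivAt.comp (f := τ) (g := curvT G₂) u
      ((contDiffAt_curvT h₂ hu₂0).differentiableAt (by simp)).hasFDerivAt hd0
  have htr0 : ∀ a b, fderiv ℝ τ u (chrisB G u a b) = chrisB G₂ (τ u) (fderiv ℝ τ u a)
      (fderiv ℝ τ u b) + fderiv ℝ (fderiv ℝ τ) u a b := by
    intro a b
    rw [chrisB_apply, chrisB_apply]
    exact h.chris_trans h₂ hu hu₂0 hτ0 hiso a b
  have hcv : ∀ a b c, (fun p => fderiv ℝ τ p (curvT G p a b c)) =ᶠ[𝓝 u]
      fun p => curvT G₂ (τ p) (fderiv ℝ τ p a) (fderiv ℝ τ p b) (fderiv ℝ τ p c) := by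
    intro a b c
    filter_upwards [h.mem_nhds hu, hu₂.eventually_nhds, hτ.eventually_nhds,
      hiso.eventually_nhds] with p h1 h2 h3 h4
    exact curvT_trans h h₂ h1 h2 h3 h4 a b c
  have hcv0 : ∀ a b c, fderiv ℝ τ u (curvT G u a b c) =
      curvT G₂ (τ u) (fderiv ℝ τ u a) (fderiv ℝ τ u b) (fderiv ℝ τ u c) :=
    fun a b c => (hcv a b c).self_of_nhds
  have k := fun (q : E) => (hasFDerivAt_const (𝕜 := ℝ) q u)
  have l1 := hd1.clm_apply (((hT.clm_apply (k x)).clm_apply (k y)).clm_apply (k z))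
  have r1 := ((hT₂.clm_apply (hd1.clm_apply (k x))).clm_apply (hd1.clm_apply (k y))).clm_apply
    (hd1.clm_apply (k z))
  have e1 := Filter.EventuallyEq.fderiv_eq (𝕜 := ℝ) (hcv x y z)
  rw [l1.fderiv, r1.fderiv] at e1
  have e2 := DFunLike.congr_fun e1 w
  simp only [add_apply, ContinuousLinearMap.comp_apply, ContinuousLinearMap.flip_apply,
    ContinuousLinearMap.flip_add, ContinuousLinearMap.comp_zero, zero_add] at e2
  unfold nR
  simp only [map_add, map_sub]
  rw [htr0 w (curvT G u x y z), hcv0 x y z, hcv0 (chrisB G u w x) y z, hcv0 x (chrisB G u w y) z,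
    hcv0 x y (chrisB G u w z), htr0 w x, htr0 w y, htr0 w z]
  simp only [map_add, add_apply]
  rw [eq_sub_of_add_eq e2]
  abel

end Coord

section Mfd

variable {n : ℕ} {M : Type} [TopologicalSpace M] [ChartedSpace (EV n) M]
  [IsManifold 𝓘(ℝ, EV n) ∞ M]

theorem IsIso.ev {g₁ g₂ : Metric (EV n) M} {ψ : Dfo n M} (h : IsIso g₁ g₂ ψ) (a b : M) {u : EV n}
    (hu : u ∈ (chartAt (EV n) a).target)
    (hb : ψ.h ((chartAt (EV n) a).symm u) ∈ (chartAt (EV n) b).source) :
    (∀ᶠ x in 𝓝 u, rep ψ.h a b x ∈ (chartAt (EV n) b).target) ∧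
    (∀ᶠ x in 𝓝 u, ContDiffAt ℝ ∞ (rep ψ.h a b) x) ∧
    ∀ᶠ x in 𝓝 u, ∀ v w, g₂.coef b (rep ψ.h a b x) (fderiv ℝ (rep ψ.h a b) x v)
      (fderiv ℝ (rep ψ.h a b) x w) = g₁.coef a x v w := by
  have h1 := eventually_rep ψ.sm.cont a b hu hb
  refine ⟨?_, ?_, ?_⟩
  · filter_upwards [h1] with x hx using rep_mem a b hx.2
  · filter_upwards [h1] with x hx using ψ.sm.smooth a b x hx.1 hx.2
  · filter_upwards [h1] with x hx using h a b x hx.1 hx.2

/-- isometries map geodesics to geodesics -/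
theorem isGeodesic_comp {g₁ g₂ : Metric (EV n) M} {ψ : Dfo n M} (h : IsIso g₁ g₂ ψ)
    {γ : ℝ → M} (hγ : IsGeodesic g₁ γ) : IsGeodesic g₂ (fun s => ψ.h (γ s)) where
  cont := ψ.h.continuous.comp_continuousOn hγ.cont
  eqn := by
    intro b t _ hb
    set a := γ t with had
    have ha : γ t ∈ (chartAt (EV n) a).source := mem_chart_source _ _
    have hu : cc (E := EV n) γ a t ∈ (chartAt (EV n) a).target := (chartAt (EV n) a).map_source ha
    have e : (chartAt (EV n) a).symm (cc (E := EV n) γ a t) = γ t := (chartAt (EV n) a).left_inv ha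
    have hb' : ψ.h ((chartAt (EV n) a).symm (cc (E := EV n) γ a t)) ∈
        (chartAt (EV n) b).source := by rw [e]; exact hb
    obtain ⟨k1, k2, k3⟩ := h.ev a b hu hb'
    have hs : ∀ᶠ s in 𝓝 t, γ s ∈ (chartAt (EV n) a).source :=
      (hγ.continuousAt t).eventually ((chartAt (EV n) a).open_source.mem_nhds ha)
    have hd : ∀ᶠ s in 𝓝 t, DifferentiableAt ℝ (cc (E := EV n) γ a) s := by
      filter_upwards [hs] with s hs'
      exact (hγ.eqn a s (mem_univ _) hs').1
    obtain ⟨e1, e2, e3⟩ := hγ.eqn a t (mem_univ _) ha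
    obtain ⟨f1, f2, f3⟩ := (g₁.isMetricOn a).geodesic_trans (g₂.isMetricOn b) hu k1.self_of_nhds
      k2.self_of_nhds k3 hd e2 e3
    have hcc : cc (E := EV n) (fun s => ψ.h (γ s)) b =ᶠ[𝓝 t]
        rep ψ.h a b ∘ cc (E := EV n) γ a := by
      filter_upwards [hs] with s hs'
      simp only [Function.comp, rep, P255.cc]
      rw [(chartAt (EV n) a).left_inv hs']
    have hcc' := hcc.deriv
    refine ⟨f1.congr_of_eventuallyEq hcc, f2.congr_of_eventuallyEq hcc', ?_⟩
    rw [hcc'.deriv_eq, f3, hcc'.self_of_nhds, hcc.self_of_nhds]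
    rfl

theorem isGeo_comp {g₁ g₂ : RMetric (EV n) M} {ψ : Dfo n M} (h : IsIso (mt g₁) (mt g₂) ψ)
    {γ : ℝ → M} (hγ : IsGeo g₁ γ) : IsGeo g₂ (fun s => ψ.h (γ s)) :=
  isGeo_of_isGeodesic (isGeodesic_comp h (isGeodesic_of_isGeo hγ))

/-- negative curvature is invariant -/
theorem negCurvature_iso {g₁ g₂ : RMetric (EV n) M} {ψ : Dfo n M} (h : IsIso (mt g₁) (mt g₂) ψ)
    (hN : NegCurvature g₂) : NegCurvature g₁ := by
  intro a u hu v w hvw
  set b := ψ.h ((chartAt (EV n) a).symm u) with hbd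
  have hb : ψ.h ((chartAt (EV n) a).symm u) ∈ (chartAt (EV n) b).source := mem_chart_source _ _
  obtain ⟨k1, k2, k3⟩ := h.ev a b hu hb
  have h1 := negOn hN b (rep ψ.h a b u) k1.self_of_nhds (fderiv ℝ (rep ψ.h a b) u v)
    (fderiv ℝ (rep ψ.h a b) u w) (by
      have h2 := hvw.map' (fderiv ℝ (rep ψ.h a b) u : EV n →ₗ[ℝ] EV n)
        (LinearMap.ker_eq_bot.2 (ψ.injective a b hu hb))
      have e : (⇑(fderiv ℝ (rep ψ.h a b) u : EV n →ₗ[ℝ] EV n) ∘ ![v, w]) =
          ![fderiv ℝ (rep ψ.h a b) u v, fderiv ℝ (rep ψ.h a b) u w] := by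
        funext i
        fin_cases i <;> rfl
      rw [e] at h2
      exact h2)
  rw [riem_mt g₁ a hu]
  change (mt g₁).coef a u _ v < 0
  rw [← k3.self_of_nhds, curvT_trans ((mt g₁).isMetricOn a) ((mt g₂).isMetricOn b) hu k1 k2 k3]
  exact h1

theorem locSymmetric_iff_nR {g : RMetric (EV n) M} : LocSymmetric g ↔
    ∀ (a : M), ∀ u ∈ (chartAt (EV n) a).target, ∀ w x y z : EV n,
      nR ((mt g).coef a) u w x y z = 0 := by
  unfold LocSymmetric nR
  refine forall_congr' fun a => forall_congr' fun u => forall_congr' fun hu =>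
    forall_congr' fun w => forall_congr' fun x => forall_congr' fun y => forall_congr' fun z => ?_
  have hm := (mt g).isMetricOn a
  have e1 : (fun p => Riem (coefIn g a) p x y z) =ᶠ[𝓝 u]
      fun p => curvT ((mt g).coef a) p x y z := by
    filter_upwards [hm.mem_nhds hu] with p hp using riem_mt g a hp x y z
  have e2 : fderiv ℝ (fun p => curvT ((mt g).coef a) p x y z) u w =
      fderiv ℝ (curvT ((mt g).coef a)) u w x y z := by
    have h2 := ((contDiffAt_curvT hm hu).differentiableAt (by simp)).hasFDerivAt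
    have h3 := ((h2.clm_apply (hasFDerivAt_const x u)).clm_apply
      (hasFDerivAt_const y u)).clm_apply (hasFDerivAt_const z u)
    rw [h3.fderiv]
    simp
  rw [Filter.EventuallyEq.fderiv_eq (𝕜 := ℝ) e1, e2, riem_mt g a hu, riem_mt g a hu,
    riem_mt g a hu, riem_mt g a hu, gam_mt g a hu, gam_mt g a hu, gam_mt g a hu,
    gam_mt g a hu]

/-- local symmetry is invariant -/
theorem locSymmetric_iso {g₁ g₂ : RMetric (EV n) M} {ψ : Dfo n M} (h : IsIso (mt g₁) (mt g₂) ψ)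
    (hS : LocSymmetric g₂) : LocSymmetric g₁ := by
  rw [locSymmetric_iff_nR] at hS ⊢
  intro a u hu w x y z
  set b := ψ.h ((chartAt (EV n) a).symm u) with hbd
  have hb : ψ.h ((chartAt (EV n) a).symm u) ∈ (chartAt (EV n) b).source := mem_chart_source _ _
  obtain ⟨k1, k2, k3⟩ := h.ev a b hu hb
  apply ψ.injective a b hu hb
  rw [nR_trans ((mt g₁).isMetricOn a) ((mt g₂).isMetricOn b) hu k1 k2 k3, map_zero]
  exact hS b (rep ψ.h a b u) k1.self_of_nhds _ _ _ _

end Mfd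

end Vale.Agent.P207.H476
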