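import Vale.Agent.P207.H476.Scale
import Vale.Agent.P207.H992.Vol
import Vale.Agent.P207.Kat.Final

/-!
# P207 (helper476), block EQ: from fixed volume to arbitrary volume
-/

open scoped Manifold ContDiff ENNReal Topology
open Bundle MeasureTheory Set Filter Topology

noncomputable section

set_option maxSynthPendingDepth 3
set_option linter.unusedSectionVars false

namespace Vale.Agent.P207.H476

open Vale.Agent.P255 (RMetric coefIn Gam Riem innerAt)
open Vale.Agent.P207 Vale.Agent.P207.Q Vale.Agent.P207.H442 Vale.Agent.P207.Kat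
open Vale.Agent.P207.H992 (KK GG SmallSym Consts exists_consts volume_frames KK_isSymm one_add_KK
  nsq abs_KK_le integrable_Fr continuous_GG)

variable {n : ℕ} {M : Type} [TopologicalSpace M] [ChartedSpace (EV n) M]
  [IsManifold 𝓘(ℝ, EV n) ∞ M] [NeZero n] [CompactSpace M] [T2Space M] [MeasurableSpace M]
  [BorelSpace M] {g g' g₁ : RMetric (EV n) M}

/-- the data of `c g'` -/
theorem exists_dat_sc [Nonempty M] (D' : Dat g') {c : ℝ} (hc : 0 < c) (h : IsSc c g' g₁) :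
    ∃ D₁ : Dat g₁, D₁.μ univ = ENNReal.ofReal (Real.sqrt c ^ n) * D'.μ univ ∧
      topEntropy (D₁.φ 1) = ENNReal.ofReal (Real.sqrt c)⁻¹ * topEntropy (D'.φ 1) ∧
      ksEntropy D₁.m (D₁.φ 1) = ENNReal.ofReal (Real.sqrt c)⁻¹ * ksEntropy D'.m (D'.φ 1) := by
  have hμ := isRiemVol_sc hc h D'.hμ
  have hm := isLiouville_sc hc h D'.hm
  obtain ⟨φ, hφ⟩ := exists_geoFlow g₁
  obtain ⟨mP, hP⟩ := exists_isMP hμ hm
  have hpr : IsProbabilityMeasure D'.m := D'.hm.1
  refine ⟨⟨_, _, φ, mP, hμ, hm, hφ, fun t => measurePreserving_sc hc h D'.hφ hφ D'.hmp t, hP⟩,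
    ?_, topEntropy_sc hc h D'.hφ hφ, ksEntropy_sc hc h D'.hφ hφ D'.hmp⟩
  rw [Measure.smul_apply, smul_eq_mul]

/-- the volume is a Lipschitz function of the metric at `g` -/
theorem exists_vol_near : ∃ C ε : ℝ, 0 ≤ C ∧ 0 < ε ∧ ∀ (g g' : RMetric (EV n) M) (D : Dat g)
    (D' : Dat g') (κ : ℝ), 0 ≤ κ → κ ≤ ε → (∀ (f : Fr g) i j, |KK g' f i j| ≤ κ) →
    |D'.μ.real univ / D.μ.real univ - 1| ≤ C * κ := by
  obtain ⟨C, ε, hC⟩ := exists_consts n
  have hC0 := hC.nonneg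
  refine ⟨n + n ^ 2 + C, ε, by positivity, hC.pos, ?_⟩
  intro g g' D D' κ hκ0 hκ hK
  have hκ1 : κ ≤ 1 := hκ.trans hC.le_one
  have := D.hP.prob
  have h1 := volume_frames (mP := D.mP) D.hμ D.hm D'.hμ D.hP.ut
  have i4 : Integrable (fun f : Fr g => Real.sqrt (GG g' f).det) D.mP :=
    integrable_Fr (Real.continuous_sqrt.comp (continuous_GG g').matrix_det)
  have h2 : D'.μ.real univ / D.μ.real univ - 1 =
      ∫ f : Fr g, (Real.sqrt (GG g' f).det - 1) ∂D.mP := by
    rw [← h1, integral_sub i4 (integrable_const _)]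
    simp
  rw [h2]
  have h3 := norm_integral_le_of_norm_le_const (μ := D.mP) (C := (n + n ^ 2 + C) * κ)
      (f := fun f : Fr g => Real.sqrt (GG g' f).det - 1) (Eventually.of_forall fun f => by
        have h5 := hC.vol (KK g' f) κ hκ0 hκ ⟨KK_isSymm g' f, hK f⟩
        rw [one_add_KK] at h5
        have t1 : |(KK g' f).trace| ≤ n * κ := by
          calc |(KK g' f).trace| ≤ ∑ i, |KK g' f i i| := Finset.abs_sum_le_sum_abs _ _
            _ ≤ ∑ _i : Fin n, κ := Finset.sum_le_sum fun i _ => hK f i i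
            _ = n * κ := by simp
        have t2 : (KK g' f).trace ^ 2 ≤ n ^ 2 * κ := by
          rw [← sq_abs]
          calc |(KK g' f).trace| ^ 2 ≤ (n * κ) ^ 2 := pow_le_pow_left₀ (abs_nonneg _) t1 2
            _ = n ^ 2 * (κ * κ) := by ring
            _ ≤ n ^ 2 * (κ * 1) := by gcongr
            _ = n ^ 2 * κ := by ring
        have t3 : nsq (KK g' f) ≤ n ^ 2 * κ := by
          refine (H992.nsq_le (hK f)).trans ?_
          calc (n * κ) ^ 2 = n ^ 2 * (κ * κ) := by ring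
            _ ≤ n ^ 2 * (κ * 1) := by gcongr
            _ = n ^ 2 * κ := by ring
        have t4 : 0 ≤ nsq (KK g' f) :=
          Finset.sum_nonneg fun i _ => Finset.sum_nonneg fun j _ => sq_nonneg _
        have t5 : C * κ ^ 3 ≤ C * κ := by
          have : κ ^ 3 ≤ κ ^ 1 := pow_le_pow_of_le_one hκ0 hκ1 (by norm_num)
          rw [pow_one] at this
          exact mul_le_mul_of_nonneg_left this hC0
        have t6 := sq_nonneg (KK g' f).trace
        have t7 : (0 : ℝ) ≤ n * κ := by positivity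
        have t8 : (0 : ℝ) ≤ n ^ 2 * κ := by positivity
        rw [Real.norm_eq_abs]
        rw [abs_le] at h5 t1 ⊢
        constructor <;> nlinarith [h5.1, h5.2, t1.1, t1.2])
  simpa using h3

/-- the constant which makes the volumes equal -/
theorem exists_const_near (hn : 0 < n) {η : ℝ} (hη : 0 < η) : ∃ δ > (0 : ℝ), ∀ ρ : ℝ,
    |ρ - 1| ≤ δ → 0 < ρ ∧ ∃ c : ℝ, 0 < c ∧ |c - 1| ≤ η ∧ Real.sqrt c ^ n * ρ = 1 := by
  have hn' : (n : ℝ) ≠ 0 := by exact_mod_cast hn.ne'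
  have hc : ContinuousAt (fun x : ℝ => x ^ (-(2 : ℝ) / n)) 1 :=
    Real.continuousAt_rpow_const 1 _ (Or.inl one_ne_zero)
  obtain ⟨δ, hδ, h⟩ := Metric.continuousAt_iff.1 hc η hη
  refine ⟨min (δ / 2) (1 / 2), by positivity, fun ρ hρ => ?_⟩
  have h1 : |ρ - 1| < δ := by
    have := hρ.trans (min_le_left _ _)
    linarith
  have h2 : |ρ - 1| ≤ 1 / 2 := hρ.trans (min_le_right _ _)
  have hρ0 : 0 < ρ := by
    have := (abs_le.1 h2).1
    linarith
  refine ⟨hρ0, ρ ^ (-(2 : ℝ) / n), Real.rpow_pos_of_pos hρ0 _, ?_, ?_⟩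
  · have h3 := h (x := ρ) (by rwa [Real.dist_eq])
    rw [Real.dist_eq, Real.one_rpow] at h3
    exact h3.le
  · rw [Real.sqrt_eq_rpow, ← Real.rpow_mul hρ0.le, ← Real.rpow_natCast, ← Real.rpow_mul hρ0.le]
    have e : -(2 : ℝ) / n * (1 / 2) * n = -1 := by
      field_simp
    rw [e, Real.rpow_neg_one, inv_mul_cancel₀ hρ0.ne']

/-- the tensor `g₁ - g` for `g₁ = c g'` -/
def kSc (c : ℝ) (k : Fin n → Fin n → SmFr g) (i j : Fin n) : SmFr g :=
  c • k i j + (c - 1) • (if i = j then 1 else 0)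

theorem isK_sc {c : ℝ} (h : IsSc c g' g₁) {k : Fin n → Fin n → SmFr g} (hk : IsK g g' k) :
    IsK g g₁ (kSc c k) := by
  intro p i j
  have e1 : ev p (kSc c k i j) = c * ev p (k i j) + (c - 1) * (if i = j then 1 else 0) := by
    unfold kSc
    by_cases hij : i = j
    · rw [if_pos hij, if_pos hij]
      rfl
    · rw [if_neg hij, if_neg hij]
      rfl
  rw [e1, hk p i j, h p.pt (p.e i) (p.e j)]
  ring

namespace Kat

variable [Nonempty (Fr g)] (D : Dat g)

theorem h_comb_le (s : ℕ) : ∃ C : ℝ, 0 ≤ C ∧ ∀ (a b : ℝ) (u v : SmFr g),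
    D.h s (a • u + b • v) ≤ C * (|a| * D.h s u + |b| * D.h s v) := by
  refine ⟨(1 + (Fintype.card (H955.Ix n) : ℝ)) ^ s, by positivity, fun a b u v => ?_⟩
  refine (H832.hN_le_n D.S D.loc s _).trans ?_
  refine mul_le_mul_of_nonneg_left ?_ (by positivity)
  refine ((H832.cal D.S D.loc).n_add_le s _ _).trans ?_
  refine (add_le_add ((H832.cal D.S D.loc).n_smul s a u).le
    ((H832.cal D.S D.loc).n_smul s b v).le).trans ?_
  have h1 := H832.n_le_hN D.S D.loc s u
  have h2 := H832.n_le_hN D.S D.loc s v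
  exact add_le_add (mul_le_mul_of_nonneg_left h1 (abs_nonneg _))
    (mul_le_mul_of_nonneg_left h2 (abs_nonneg _))

theorem hT_kSc_le (s : ℕ) : ∃ C : ℝ, 0 ≤ C ∧ ∀ (c : ℝ) (k : Fin n → Fin n → SmFr g),
    D.hT s (kSc c k) ≤ C * (|c| * D.hT s k + |c - 1|) := by
  obtain ⟨C, hC, h⟩ := h_comb_le D s
  set A : ℝ := ∑ i : Fin n, ∑ j : Fin n, D.h s (if i = j then 1 else 0) with hA
  have hA0 : 0 ≤ A := Finset.sum_nonneg fun i _ => Finset.sum_nonneg fun j _ => D.h_nonneg s _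
  refine ⟨C * (1 + A), by positivity, fun c k => ?_⟩
  have e : D.hT s (kSc c k) ≤ C * (|c| * D.hT s k + |c - 1| * A) := by
    unfold Dat.hT
    rw [hA]
    simp only [Finset.mul_sum, ← Finset.sum_add_distrib]
    refine Finset.sum_le_sum fun i _ => Finset.sum_le_sum fun j _ => ?_
    exact h _ _ _ _
  refine e.trans ?_
  rw [mul_assoc]
  refine mul_le_mul_of_nonneg_left ?_ hC
  have h1 := D.hT_nonneg s k
  have h2 : 0 ≤ |c| * D.hT s k := by positivity
  have h3 : 0 ≤ |c - 1| := abs_nonneg _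
  nlinarith

end Kat

/-- `FINStmt` with the order `s` -/
def FINr [Nonempty (Fr g)] (D : Dat g) (s : ℕ) : Prop :=
  ∃ ε > (0 : ℝ), ∀ (g' : RMetric (EV n) M) (D' : Dat g')
    (k : Fin n → Fin n → SmFr g), NegCurvature g' → D'.μ univ = D.μ univ → IsK g g' k →
    D.hT s k ≤ ε →
    (topEntropy (D'.φ 1) ≤ topEntropy (D.φ 1) ∨ ksEntropy D.m (D.φ 1) ≤ ksEntropy D'.m (D'.φ 1)) →
    LocSymmetric g'

/-- `EQStmt` with the order `s` -/
def EQr [Nonempty (Fr g)] (D : Dat g) (s : ℕ) : Prop :=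
  ∃ ε > (0 : ℝ), ∀ (g' : RMetric (EV n) M) (D' : Dat g')
    (k : Fin n → Fin n → SmFr g), NegCurvature g' → IsK g g' k → D.hT s k ≤ ε →
    ksEntropy D'.m (D'.φ 1) = topEntropy (D'.φ 1) → LocSymmetric g'

/-- **(EQ)** with the orders: `d` is the order of the Sobolev inequality -/
theorem eqr_of_finr [Nonempty (Fr g)] [ConnectedSpace M] (hn : 2 ≤ n) (hN : NegCurvature g)
    (hS : LocSymmetric g) (D : Dat g) {d s : ℕ}
    (hsob : ∃ K : ℝ, 0 < K ∧ ∀ k : Fin n → Fin n → SmFr g, D.cT 0 k ≤ K * D.hT d k)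
    (hFIN : FINr D s) : EQr D (s + d) := by
  obtain ⟨ε, hε, F⟩ := hFIN
  obtain ⟨C, hC, hnorm⟩ := Kat.hT_kSc_le D s
  obtain ⟨KS, hKS, sob⟩ := hsob
  obtain ⟨C₁, ε₁, hC₁, hε₁, vol⟩ := exists_vol_near (n := n) (M := M)
  have hη : 0 < min (ε / (2 * (C + 1))) 1 := by positivity
  obtain ⟨δ, hδ, hconst⟩ := exists_const_near (by omega : 0 < n) hη
  have e := ksEntropy_eq_of_locSymmetric hn D.hφ D.hμ D.hm hN hS
  set B : ℝ := KS * (1 / ε₁ + (C₁ + 1) / δ) + 4 * (C + 1) / ε with hB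
  have hB0 : 0 < B := by positivity
  refine ⟨1 / B, by positivity, ?_⟩
  intro g' D' k hN' hk hkB hent
  have hs0 := D.hT_nonneg (s + d) k
  have hBk : B * D.hT (s + d) k ≤ 1 := by
    rw [le_div_iff₀ hB0] at hkB
    linarith
  have p1 : 0 ≤ KS * (1 / ε₁) * D.hT (s + d) k := by positivity
  have p2 : 0 ≤ KS * ((C₁ + 1) / δ) * D.hT (s + d) k := by positivity
  have p3 : 0 ≤ 4 * (C + 1) / ε * D.hT (s + d) k := by positivity
  have q0 : B * D.hT (s + d) k = KS * (1 / ε₁) * D.hT (s + d) k +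
      KS * ((C₁ + 1) / δ) * D.hT (s + d) k + 4 * (C + 1) / ε * D.hT (s + d) k := by
    rw [hB]
    ring
  have hκ0 : 0 ≤ D.cT 0 k := D.cT_nonneg 0 k
  have hκs : D.cT 0 k ≤ KS * D.hT (s + d) k :=
    (sob k).trans (mul_le_mul_of_nonneg_left (D.hT_mono (by omega) k) hKS.le)
  -- the sup norm is small
  have hκ1 : D.cT 0 k ≤ ε₁ := by
    have h1 : KS * D.hT (s + d) k / ε₁ ≤ 1 := by
      have : KS * D.hT (s + d) k / ε₁ = KS * (1 / ε₁) * D.hT (s + d) k := by ring
      linarith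
    rw [div_le_iff₀ hε₁] at h1
    linarith
  have hκ2 : C₁ * D.cT 0 k ≤ δ := by
    have h1 : (C₁ + 1) * (KS * D.hT (s + d) k) / δ ≤ 1 := by
      have : (C₁ + 1) * (KS * D.hT (s + d) k) / δ =
        KS * ((C₁ + 1) / δ) * D.hT (s + d) k := by ring
      linarith
    rw [div_le_iff₀ hδ] at h1
    nlinarith
  have hvol := vol g g' D D' (D.cT 0 k) hκ0 hκ1 (abs_KK_le D hk)
  obtain ⟨hρ, c, hc, hc1, hceq⟩ := hconst _ (hvol.trans hκ2)
  -- the scaled metric
  have hsc : IsSc c g' (smulR c hc g') := isSc_smulR hc g'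
  obtain ⟨D₁, f1, f2, f3⟩ := exists_dat_sc D' hc hsc
  have hμpos := D.hm.vol_pos
  have hμfin : D.μ univ ≠ ⊤ := by
    intro h
    rw [Measure.real, h] at hμpos
    simp at hμpos
  have hμ'fin : D'.μ univ ≠ ⊤ := by
    intro h
    have := D'.hm.vol_pos
    rw [Measure.real, h] at this
    simp at this
  have hvol1 : D₁.μ univ = D.μ univ := by
    rw [f1, ← ENNReal.ofReal_toReal hμfin, ← ENNReal.ofReal_toReal hμ'fin,
      ← ENNReal.ofReal_mul (by positivity)]
    congr 1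
    have h1 : Real.sqrt c ^ n * (D'.μ.real univ / D.μ.real univ) = 1 := hceq
    have h2 : Real.sqrt c ^ n * D'.μ.real univ = D.μ.real univ := by
      field_simp at h1
      linarith
    exact h2
  have hk1 : IsK g (smulR c hc g') (kSc c k) := isK_sc hsc hk
  have hsmall : D.hT s (kSc c k) ≤ ε := by
    refine (hnorm c k).trans ?_
    have a1 : |c - 1| ≤ ε / (2 * (C + 1)) := hc1.trans (min_le_left _ _)
    have a2 : |c - 1| ≤ 1 := hc1.trans (min_le_right _ _)
    have a3 : |c| ≤ 2 := by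
      rw [abs_of_pos hc]
      have := (abs_le.1 a2).2
      linarith
    have a4 : D.hT s k ≤ D.hT (s + d) k := D.hT_mono (by omega) k
    have a5 : D.hT s k ≤ ε / (4 * (C + 1)) := by
      have h1 : 4 * (C + 1) / ε * D.hT (s + d) k ≤ 1 := by linarith
      rw [div_mul_eq_mul_div, div_le_iff₀ hε, one_mul] at h1
      rw [le_div_iff₀ (by positivity)]
      nlinarith
    have a6 := D.hT_nonneg s k
    have a7 : |c| * D.hT s k + |c - 1| ≤ ε / (C + 1) := by
      have b1 : |c| * D.hT s k ≤ 2 * (ε / (4 * (C + 1))) := by gcongr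
      have b2 : 2 * (ε / (4 * (C + 1))) + ε / (2 * (C + 1)) = ε / (C + 1) := by
        field_simp
        ring
      linarith
    have a8 : C * (ε / (C + 1)) ≤ ε := by
      rw [mul_div_assoc', div_le_iff₀ (by positivity)]
      nlinarith
    exact (mul_le_mul_of_nonneg_left a7 hC).trans a8
  have hN1 : NegCurvature (smulR c hc g') := negCurvature_sc hc hsc hN'
  have hL := F (smulR c hc g') D₁ (kSc c k) hN1 hvol1 hk1 hsmall (by
    have h1 : ksEntropy D₁.m (D₁.φ 1) = topEntropy (D₁.φ 1) := by rw [f2, f3, hent]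
    rw [e, h1]
    exact le_total _ _)
  exact locSymmetric_of_smul (inv_pos.2 hc).ne' (isSc_inv hc hsc) hL

/-- **(EQ)** from the conclusion at fixed volume to the rigidity of the equality -/
theorem eq_of_fin [Nonempty (Fr g)] [ConnectedSpace M] (hn : 2 ≤ n) (hN : NegCurvature g)
    (hS : LocSymmetric g) (D : Dat g) (hFIN : D.FINStmt) : D.EQStmt := by
  obtain ⟨s, F⟩ := hFIN
  obtain ⟨dS, KS, hKS, sob⟩ := D.exists_sob
  refine ⟨s + dS, eqr_of_finr hn hN hS D ⟨KS, hKS, fun k => (sob 0 k).trans ?_⟩ F⟩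
  rw [Nat.zero_add]

end Vale.Agent.P207.H476
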