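import Vale.Agent.P207.H256.SpecR
import Vale.Agent.P207.H476.Eq

/-!
# P207 (helper476): the iteration with explicit orders
-/

open scoped Manifold ContDiff ENNReal Topology
open Bundle MeasureTheory Set Filter Topology

noncomputable section

set_option maxSynthPendingDepth 3
set_option linter.unusedSectionVars false

namespace Vale.Agent.P207.H476

open Vale.Agent.P255 (RMetric coefIn Gam Riem innerAt)
open Vale.Agent.P207 Vale.Agent.P207.Q Vale.Agent.P207.H442 Vale.Agent.P207.Kat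
open Vale.Agent.P207.Kat.Dat

variable {n : ℕ} {M : Type} [TopologicalSpace M] [ChartedSpace (EV n) M]
  [IsManifold 𝓘(ℝ, EV n) ∞ M] [NeZero n] [CompactSpace M] [T2Space M] [MeasurableSpace M]
  [BorelSpace M] {g : RMetric (EV n) M} [Nonempty (Fr g)]

variable [ConnectedSpace M]

/-- **the iteration with orders** -/
theorem finr_of (D : Dat g) (hn : 2 ≤ n) (hN : NegCurvature g) (hS : LocSymmetric g)
    {d r3 r0 s4 : ℕ} (hSob : D.SobOrd d) (hB2 : D.B2Stmt) (hVOL : D.VOLStmt) (hPOS : D.POSr r3)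
    (hSTEP : D.STEPr r0) (hLIM : D.LIMr s4) :
    D.FINr (8 * (r0 + r3 + d + s4 + 2)) := by
  obtain ⟨KS, hKS, sob⟩ := D.cT_le_of_sobOrd hSob
  obtain ⟨K1, hK1, B2⟩ := hB2
  obtain ⟨K2, hK2, VOL⟩ := hVOL
  obtain ⟨K3, hK3, POS⟩ := hPOS
  have LIM := hLIM hS
  set r : ℕ := r0 + r3 + d + s4 + 2 with hr
  obtain ⟨K5, hK5, STEP⟩ := hSTEP r3 r (by omega)
  obtain ⟨K6, hK6, INT⟩ := D.exists_interp r
  -- coercivity
  have key : ∀ (g' : RMetric (EV n) M) (D' : Dat g') (k : Fin n → Fin n → SmFr g),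
      NegCurvature g' → D'.μ univ = D.μ univ → IsK g g' k →
      (topEntropy (D'.φ 1) ≤ topEntropy (D.φ 1) ∨
        ksEntropy D.m (D.φ 1) ≤ ksEntropy D'.m (D'.φ 1)) →
      K1 * (KS + K3) * D.hT r k ≤ 1 → K2 * KS * D.hT r k ≤ 1 → D.hT r k ≤ 1 →
      D.hT 0 k ^ 2 ≤ (n : ℝ) ^ 2 * (K3 * (2 * n * (K1 * (KS + K3) ^ 3) + (K2 * KS ^ 2) ^ 2 + 1)) *
        (D.hT r k ^ 3 + D.hV r3 (divf (frCalc g) k) ^ 2) := by
    intro g' D' k hN' hvol hk hent h1 h2 h3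
    have hrn := D.hT_nonneg r k
    have hn0 : (0 : ℝ) < n := by exact_mod_cast (by omega : 0 < n)
    obtain ⟨y, hy, hyb, hpos⟩ := POS k (gt2_of_isK hk)
    have c2 : D.cT 2 k ≤ KS * D.hT r k :=
      (sob 2 k).trans (mul_le_mul_of_nonneg_left (D.hT_mono (by omega) k) hKS.le)
    have c0 : D.cT 0 k ≤ KS * D.hT r k :=
      (sob 0 k).trans (mul_le_mul_of_nonneg_left (D.hT_mono (by omega) k) hKS.le)
    have cy : D.cV 1 y ≤ K3 * D.hT r k :=
      hyb.trans (mul_le_mul_of_nonneg_left (D.hT_mono (by omega) k) hK3.le)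
    have hsum : D.cT 2 k + D.cV 1 y ≤ (KS + K3) * D.hT r k := by linarith
    have hsum0 : 0 ≤ D.cT 2 k + D.cV 1 y := add_nonneg (D.cT_nonneg 2 k) (D.cV_nonneg 1 y)
    have hsm : K1 * (D.cT 2 k + D.cV 1 y) ≤ 1 :=
      (mul_le_mul_of_nonneg_left hsum hK1.le).trans (by linarith)
    obtain ⟨b1, b2⟩ := B2 g' D' k y hN' hvol hk hy hsm
    have hQ := D.Q_le hn hN hS D' b1 b2 hent
    have hcube : (D.cT 2 k + D.cV 1 y) ^ 3 ≤ (KS + K3) ^ 3 * D.hT r k ^ 3 := by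
      rw [← mul_pow]
      exact pow_le_pow_left₀ hsum0 hsum 3
    have hQ2 : D.Q k y ≤ 2 * n * (K1 * (KS + K3) ^ 3) * D.hT r k ^ 3 := by
      have e1 : D.Q k y / (2 * n) ≤ K1 * (D.cT 2 k + D.cV 1 y) ^ 3 := by linarith
      have e2 : D.Q k y / (2 * n) ≤ K1 * ((KS + K3) ^ 3 * D.hT r k ^ 3) :=
        e1.trans (mul_le_mul_of_nonneg_left hcube hK1.le)
      have e3 : (0 : ℝ) < 2 * n := by linarith
      rw [div_le_iff₀ e3] at e2
      linarith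
    have hv : D.I (∑ i, k i i) ^ 2 ≤ (K2 * KS ^ 2) ^ 2 * D.hT r k ^ 3 := by
      have hc0 := D.cT_nonneg 0 k
      have f0 : K2 * D.cT 0 k ≤ 1 :=
        (mul_le_mul_of_nonneg_left c0 hK2.le).trans (by linarith)
      have f1 := VOL g' D' k hvol hk f0
      have f2 : D.cT 0 k ^ 2 ≤ KS ^ 2 * D.hT r k ^ 2 := by
        rw [← mul_pow]
        exact pow_le_pow_left₀ hc0 c0 2
      have f3 : |D.I (∑ i, k i i)| ≤ K2 * KS ^ 2 * D.hT r k ^ 2 := by
        refine f1.trans ?_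
        rw [mul_assoc]
        exact mul_le_mul_of_nonneg_left f2 hK2.le
      have f4 : D.I (∑ i, k i i) ^ 2 ≤ (K2 * KS ^ 2 * D.hT r k ^ 2) ^ 2 := by
        rw [← sq_abs]
        exact pow_le_pow_left₀ (abs_nonneg _) f3 2
      refine f4.trans ?_
      have f5 : D.hT r k ^ 4 ≤ D.hT r k ^ 3 := pow_le_pow_of_le_one hrn h3 (by norm_num)
      calc (K2 * KS ^ 2 * D.hT r k ^ 2) ^ 2 = (K2 * KS ^ 2) ^ 2 * D.hT r k ^ 4 := by ring
        _ ≤ (K2 * KS ^ 2) ^ 2 * D.hT r k ^ 3 := mul_le_mul_of_nonneg_left f5 (sq_nonneg _)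
    have hd0 : 0 ≤ D.hV r3 (divf (frCalc g) k) ^ 2 := sq_nonneg _
    have h30 : 0 ≤ D.hT r k ^ 3 := pow_nonneg hrn 3
    have hfin : D.Q k y + D.hV r3 (divf (frCalc g) k) ^ 2 + D.I (∑ i, k i i) ^ 2 ≤
        (2 * n * (K1 * (KS + K3) ^ 3) + (K2 * KS ^ 2) ^ 2 + 1) *
          (D.hT r k ^ 3 + D.hV r3 (divf (frCalc g) k) ^ 2) := by
      have g1 : 0 ≤ 2 * n * (K1 * (KS + K3) ^ 3) := by positivity
      have g2 : 0 ≤ (K2 * KS ^ 2) ^ 2 := sq_nonneg _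
      nlinarith [mul_nonneg g1 hd0, mul_nonneg g2 hd0]
    calc D.hT 0 k ^ 2 ≤ (n : ℝ) ^ 2 * D.I (∑ i, ∑ j, k i j * k i j) := D.hT_zero_sq_le k
      _ ≤ (n : ℝ) ^ 2 * (K3 * ((2 * n * (K1 * (KS + K3) ^ 3) + (K2 * KS ^ 2) ^ 2 + 1) *
          (D.hT r k ^ 3 + D.hV r3 (divf (frCalc g) k) ^ 2))) := by
        refine mul_le_mul_of_nonneg_left (hpos.trans ?_) (sq_nonneg _)
        exact mul_le_mul_of_nonneg_left hfin hK3.le
      _ = _ := by ring
  set K7 : ℝ := (n : ℝ) ^ 2 * (K3 * (2 * n * (K1 * (KS + K3) ^ 3) + (K2 * KS ^ 2) ^ 2 + 1))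
    with hK7
  have hK70 : 0 ≤ K7 := by positivity
  set C : ℝ := K5 + K6 + K7 + 1 with hC
  have hC5 : K5 ≤ C := by linarith
  have hC6 : K6 ≤ C := by linarith
  have hC7 : K7 ≤ C := by linarith
  have hC1 : 1 ≤ C := by linarith
  set η : ℝ := 1 / (K1 * (KS + K3) + K2 * KS + K5 + 1) with hη
  have hden : 0 < K1 * (KS + K3) + K2 * KS + K5 + 1 := by positivity
  have hη0 : 0 < η := by positivity
  have hsmall : ∀ e : ℝ, 0 ≤ e → e ≤ η →
      K1 * (KS + K3) * e ≤ 1 ∧ K2 * KS * e ≤ 1 ∧ e ≤ 1 ∧ K5 * e ≤ 1 := by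
    intro e he he'
    have h1 : (K1 * (KS + K3) + K2 * KS + K5 + 1) * e ≤ 1 := by
      have := mul_le_mul_of_nonneg_left he' hden.le
      rwa [hη, mul_one_div_cancel hden.ne'] at this
    have p1 : 0 ≤ K1 * (KS + K3) * e := by positivity
    have p2 : 0 ≤ K2 * KS * e := by positivity
    have p3 : 0 ≤ K5 * e := by positivity
    refine ⟨?_, ?_, ?_, ?_⟩ <;> nlinarith
  obtain ⟨ε, hε, newt⟩ := H832.newton C η hC1 hη0
  refine ⟨ε, hε, ?_⟩
  intro g' D' k hN' hvol hk hkε hent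
  refine LIM g' fun δ hδ => ?_
  -- the states
  let G : Type := {q : Dfo n M × (Fin n → Fin n → SmFr g) // IsK g (pull g' q.1) q.2}
  obtain ⟨q, -, hq⟩ := newt (G := G) (fun _ _ => True) (fun q => D.hT 0 q.1.2)
    (fun q => D.hT r q.1.2) (fun q => D.hT (8 * r) q.1.2)
    (fun q => D.hV r3 (divf (frCalc g) q.1.2))
    (fun _ => trivial) (fun _ _ _ _ _ => trivial)
    (fun q => D.hT_nonneg _ _) (fun q => D.hT_nonneg _ _) (fun q => D.hT_nonneg _ _)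
    (fun q => D.hV_nonneg _ _) (fun q => D.hT_mono (Nat.zero_le _) _)
    (fun q => by
      refine (INT q.1.2).trans ?_
      have h1 := D.hT_nonneg 0 q.1.2
      have h2 := D.hT_nonneg (8 * r) q.1.2
      gcongr)
    (⟨(Dfo.refl n M, k), isK_refl hk⟩ : G)
    (by
      rintro ⟨⟨ψ, k₁⟩, hk₁⟩ - he
      have hiso := isIso_pull g' ψ
      obtain ⟨D₁⟩ := Dat.nonempty (g := pull g' ψ) inferInstance
      obtain ⟨f1, f2, f3⟩ := iso_facts D₁ D' hiso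
      obtain ⟨s1, s2, s3, -⟩ := hsmall _ (D.hT_nonneg r k₁) he
      refine (key (pull g' ψ) D₁ k₁ (negCurvature_iso hiso hN') (f1.trans hvol) hk₁ ?_
        s1 s2 s3).trans ?_
      · rw [f2, f3]
        exact hent
      · have := D.hT_nonneg r k₁
        gcongr)
    (by
      rintro ⟨⟨ψ, k₁⟩, hk₁⟩ - he
      obtain ⟨-, -, -, s4⟩ := hsmall _ (D.hT_nonneg r k₁) he
      obtain ⟨ψ', k', hk', t1, t2, t3⟩ := STEP (pull g' ψ) k₁ hk₁ s4
      have h1 := D.hT_nonneg r k₁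
      have h2 := D.hT_nonneg (8 * r) k₁
      refine ⟨⟨(ψ.comp ψ', k'), isK_comp hk'⟩, trivial, t1.trans ?_, t2.trans ?_, t3.trans ?_⟩
      · exact mul_le_mul_of_nonneg_right hC5 h2
      · exact mul_le_mul_of_nonneg_right hC5 h1
      · exact mul_le_mul_of_nonneg_right hC5 (sq_nonneg _))
    hkε δ hδ
  exact ⟨q.1.1, q.1.2, q.2, (D.hT_mono (by omega) _).trans hq⟩

/-- **(EQ) with orders** -/
theorem eqr_of_sobOrd (D : Dat g) (hn : 2 ≤ n) (hN : NegCurvature g) (hS : LocSymmetric g)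
    {d s : ℕ} (hSob : D.SobOrd d) (hFIN : D.FINr s) : EQr D (s + d) := by
  obtain ⟨K, hK, h⟩ := D.cT_le_of_sobOrd hSob
  refine eqr_of_finr hn hN hS D ⟨K, hK, fun k => (h 0 k).trans ?_⟩ hFIN
  rw [Nat.zero_add]

end Vale.Agent.P207.H476
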