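import Vale.Agent.P207.H476.Lie
import Vale.Agent.P207.H832.Curve
import Vale.Agent.P207.H955.FrN2

/-!
# P207 (helper476): jointly smooth curves of functions on the frame bundle; the curve `ψ_t^* g - g₀`
-/

open scoped Manifold ContDiff ENNReal Topology
open Bundle MeasureTheory Set Filter

noncomputable section

set_option maxSynthPendingDepth 3
set_option linter.unusedSectionVars false
set_option linter.unusedVariables false

namespace Vale.Agent.P207.H476

open Vale.Agent.P207.Q.Fl Vale.Agent.P207.Q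
open Vale.Agent.P255 (RMetric coefIn Gam Riem IsGeo Metric IsGeodesic IsGeodesicOn toMetric coefL
  trans cc chris chrisB chrisB_apply IsMetricOn two_le_infty covD)

variable {n : ℕ} {M : Type} [TopologicalSpace M] [ChartedSpace (EV n) M]
  [IsManifold 𝓘(ℝ, EV n) ∞ M]

section Joint

variable [CompactSpace M] [T2Space M] [NeZero n] {g₀ : RMetric (EV n) M} [Nonempty (Fr g₀)]

/-- jointly smooth families of functions on the frame bundle -/
structure Joint (F : ℝ → Fr g₀ → ℝ) : Prop where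
  map : ((Dif.lin ℝ).prod (frSys g₀).dif).Map (Dif.lin ℝ) (fun q : ℝ × Fr g₀ => F q.1 q.2)

theorem Joint.swap {F : ℝ → Fr g₀ → ℝ} (h : Joint F) :
    ((frSys g₀).dif.prod (Dif.lin ℝ)).Map (Dif.lin ℝ) (fun q : Fr g₀ × ℝ => F q.2 q.1) := by
  intro E _ _ _ u x hu
  exact h.map (u := fun y => ((u y).2, (u y).1)) ⟨hu.2, hu.1⟩

theorem Joint.of_swap {F : ℝ → Fr g₀ → ℝ}
    (h : ((frSys g₀).dif.prod (Dif.lin ℝ)).Map (Dif.lin ℝ) (fun q : Fr g₀ × ℝ => F q.2 q.1)) :
    Joint F := by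
  refine ⟨?_⟩
  intro E _ _ _ u x hu
  exact h (u := fun y => ((u y).2, (u y).1)) ⟨hu.2, hu.1⟩

theorem Joint.continuous {F : ℝ → Fr g₀ → ℝ} (h : Joint F) :
    Continuous fun q : ℝ × Fr g₀ => F q.1 q.2 := by
  have h1 := CSys.HasSec.continuous_param (hasSec_frSys (g := g₀)) h.swap
  exact h1.comp continuous_swap

theorem Joint.smF {F : ℝ → Fr g₀ → ℝ} (h : Joint F) (t : ℝ) : SmF (F t) := by
  refine smF_iff_map.2 ?_
  intro E _ _ _ u x hu
  exact h.map (u := fun y => (t, u y)) ⟨Sm.const t x, hu⟩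

theorem Joint.hasDerivAt {F : ℝ → Fr g₀ → ℝ} (h : Joint F) (t : ℝ) (p : Fr g₀) :
    HasDerivAt (fun t => F t p) (_root_.deriv (fun t => F t p) t) t := by
  have h1 := Dif.contDiff_slice h.swap (x := p) ((frSys g₀).at_const p)
  exact (h1.differentiable (by simp) t).hasDerivAt

theorem Joint.dt {F : ℝ → Fr g₀ → ℝ} (h : Joint F) :
    Joint fun t p => deriv (fun t => F t p) t := by
  refine ⟨?_⟩
  intro E _ _ _ u x hu
  exact Dif.map_deriv h.swap (u := fun y => ((u y).2, (u y).1)) ⟨hu.2, hu.1⟩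

theorem Joint.dZ {Z : ChField g₀} {Ψ : ℝ → Fr g₀ → Fr g₀} (hZ : IsFlow Z Ψ) (hΨ : JSm Ψ)
    {F : ℝ → Fr g₀ → ℝ} (h : Joint F) : Joint fun t p => dZ Z (F t) p := by
  have h1 : (((Dif.lin ℝ).prod (frSys g₀).dif).prod (Dif.lin ℝ)).Map (Dif.lin ℝ)
      (fun q : (ℝ × Fr g₀) × ℝ => F q.1.1 (Ψ q.2 q.1.2)) := by
    intro E _ _ _ u x hu
    have h2 : (frSys g₀).dif.At (fun y => Ψ (u y).2 (u y).1.2) x :=
      hΨ (u := fun y => ((u y).2, (u y).1.2)) ⟨hu.2, hu.1.2⟩
    exact h.map (u := fun y => ((u y).1.1, Ψ (u y).2 (u y).1.2)) ⟨hu.1.1, h2⟩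
  refine ⟨?_⟩
  intro E _ _ _ u x hu
  have h4 := Dif.map_deriv h1 (u := fun y => (u y, (0 : ℝ))) (x := x) ⟨hu, Sm.const 0 x⟩
  refine Sm.congr h4 (Eventually.of_forall fun y => ?_)
  exact (H955.hasDerivAt_dZ hZ (h.smF (u y).1) (u y).2).deriv

theorem Joint.add {F G : ℝ → Fr g₀ → ℝ} (hF : Joint F) (hG : Joint G) :
    Joint fun t p => F t p + G t p := ⟨Dif.Map.add hF.map hG.map⟩

theorem Joint.sub {F G : ℝ → Fr g₀ → ℝ} (hF : Joint F) (hG : Joint G) :
    Joint fun t p => F t p - G t p := ⟨Dif.Map.sub hF.map hG.map⟩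

theorem Joint.mul {F G : ℝ → Fr g₀ → ℝ} (hF : Joint F) (hG : Joint G) :
    Joint fun t p => F t p * G t p := ⟨Dif.Map.mul hF.map hG.map⟩

theorem Joint.of_smF {f : Fr g₀ → ℝ} (hf : SmF f) : Joint fun _ p => f p := by
  refine ⟨?_⟩
  intro E _ _ _ u x hu
  exact smF_iff_map.1 hf hu.2

theorem Joint.of_smooth {f : ℝ → ℝ} (hf : ContDiff ℝ ∞ f) :
    Joint (g₀ := g₀) fun t _ => f t := by
  refine ⟨?_⟩
  intro E _ _ _ u x hu
  have h1 : Sm (fun y => (u y).1) x := hu.1
  exact Sm.comp (f := f) (g := fun y => (u y).1) (Sm.of_contDiff hf _) h1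

theorem joint_frG (W : VecF n M) (g₁ : RMetric (EV n) M) (i j : Fin n) :
    Joint (g₀ := g₀) fun t f => frG g₀ (pull g₁ (W.dfo t)) i j f := ⟨map_frG W g₁ i j⟩

/-- the jointly smooth curves of smooth functions -/
def JC (g₀ : RMetric (EV n) M) [Nonempty (Fr g₀)] : Set (ℝ → SmFr g₀) :=
  {F | Joint fun t p => (F t : C(Fr g₀, ℝ)) p}

variable {m : Measure (UT g₀)} {mP : Measure (Fr g₀)} {φ : ℝ → UT g₀ → UT g₀}
  (hP : IsMP m mP) (hφ : IsGeoFlow g₀ φ) (hmp : ∀ t, MeasurePreserving (φ t) m m)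

/-- the jointly smooth curves form a system in the sense of `H832.JS` -/
theorem js_JC : H832.JS (H955.frNSys hP hφ hmp) (JC g₀) where
  cont F hF := Joint.continuous hF
  X F hF a := by
    have h1 : Joint fun t p => (F t : C(Fr g₀, ℝ)) p := hF
    exact h1.dZ (H955.isFlow_flowN (horFlows g₀) a) (H955.jsm_flowN (horFlows g₀) a)
  dt F hF := by
    have h1 : Joint fun t p => (F t : C(Fr g₀, ℝ)) p := hF
    refine ⟨fun t => ⟨⟨_, (h1.dt.smF t).continuous⟩, h1.dt.smF t⟩, h1.dt,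
      fun t p => h1.hasDerivAt t p⟩

end Joint

section Curve

variable [CompactSpace M] [T2Space M] [NeZero n] {g₀ : RMetric (EV n) M} [Nonempty (Fr g₀)]

/-- the components of `g - g₀`, as smooth functions -/
def kS (g₀ g : RMetric (EV n) M) (i j : Fin n) : SmFr g₀ :=
  ⟨⟨frG g₀ g i j, (smF_frG g i j).continuous⟩, smF_frG g i j⟩ - if i = j then 1 else 0

theorem kS_apply (g : RMetric (EV n) M) (i j : Fin n) (f : Fr g₀) :
    (kS g₀ g i j : C(Fr g₀, ℝ)) f = frG g₀ g i j f - if i = j then 1 else 0 := by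
  unfold kS
  split_ifs <;> rfl

theorem kS_symm (g : RMetric (EV n) M) (i j : Fin n) : kS g₀ g i j = kS g₀ g j i := by
  apply Subtype.ext
  ext f
  rw [kS_apply, kS_apply, frG_symm]
  simp only [eq_comm]

theorem kS_self (i j : Fin n) : kS g₀ g₀ i j = 0 := by
  apply Subtype.ext
  ext f
  rw [kS_apply, frG_self, sub_self]
  rfl

/-- the components of the vector field `W`, as smooth functions -/
def wS (g₀ : RMetric (EV n) M) (W : VecF n M) (m : Fin n) : SmFr g₀ :=
  ⟨⟨frW g₀ W m, (smF_frW W m).continuous⟩, smF_frW W m⟩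

theorem wS_apply (W : VecF n M) (m : Fin n) (f : Fr g₀) :
    (wS g₀ W m : C(Fr g₀, ℝ)) f = frW g₀ W m f := rfl

theorem frG_dfo_zero (W : VecF n M) (g : RMetric (EV n) M) (i j : Fin n) (f : Fr g₀) :
    frG g₀ (pull g (W.dfo 0)) i j f = frG g₀ g i j f := by
  have ha : f.pt ∈ (chartAt (EV n) f.pt).source := mem_chart_source _ _
  have hu : (chF f.pt f.1).1 ∈ (chartAt (EV n) f.pt).target := (chartAt (EV n) f.pt).map_source ha
  rw [frG_eq _ i j ha, frG_eq _ i j ha]
  have h1 : IsIso (mt g) (mt g) (W.dfo 0) := by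
    intro a b u hu hb v w
    have e : (rep (W.dfo 0).h a b : EV n → EV n) = trans (EV n) a b := by
      funext x
      change chartAt (EV n) b (W.fl 0 ((chartAt (EV n) a).symm x)) = _
      rw [W.fl_zero]
      rfl
    have hb' : (chartAt (EV n) a).symm u ∈ (chartAt (EV n) b).source := by
      have h2 : (W.dfo 0).h ((chartAt (EV n) a).symm u) = (chartAt (EV n) a).symm u := by
        rw [W.dfo_apply, W.fl_zero]
      rwa [h2] at hb
    rw [e]
    exact (mt g).compat a b u hu hb' v w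
  rw [(isIso_pull g (W.dfo 0)).coef_eq h1 f.pt hu]

theorem kS_dfo_zero (W : VecF n M) (g : RMetric (EV n) M) (i j : Fin n) :
    kS g₀ (pull g (W.dfo 0)) i j = kS g₀ g i j := by
  apply Subtype.ext
  ext f
  rw [kS_apply, kS_apply, frG_dfo_zero]

theorem mem_JC (W : VecF n M) (g : RMetric (EV n) M) (i j : Fin n) :
    (fun t => kS g₀ (pull g (W.dfo t)) i j) ∈ JC g₀ := by
  have h1 := (joint_frG (g₀ := g₀) W g i j).sub
    (Joint.of_smooth (g₀ := g₀) (f := fun _ => if i = j then (1 : ℝ) else 0) contDiff_const)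
  have e : (fun t p => (kS g₀ (pull g (W.dfo t)) i j : C(Fr g₀, ℝ)) p) = fun t p =>
      frG g₀ (pull g (W.dfo t)) i j p - if i = j then (1 : ℝ) else 0 := by
    funext t p
    exact kS_apply _ i j p
  change Joint fun t p => (kS g₀ (pull g (W.dfo t)) i j : C(Fr g₀, ℝ)) p
  rw [e]
  exact h1

theorem Hd_kS (g : RMetric (EV n) M) (m i j : Fin n) (f : Fr g₀) :
    (H442.Hd g₀ m (kS g₀ g i j) : C(Fr g₀, ℝ)) f =
      dZ (horZ g₀ (Pi.single m 1)) (frG g₀ g i j) f := by
  have e : H442.Hd g₀ m (kS g₀ g i j) =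
      H442.Hd g₀ m ⟨⟨frG g₀ g i j, (smF_frG g i j).continuous⟩, smF_frG g i j⟩ := by
    unfold kS
    rw [map_sub]
    split_ifs
    · rw [Derivation.map_one_eq_zero, sub_zero]
    · rw [map_zero, sub_zero]
  rw [e]
  rfl

/-- **the transport equation** in the algebra of smooth functions -/
theorem hasDerivAt_kS (W : VecF n M) (g : RMetric (EV n) M) (i j : Fin n) (t : ℝ) (f : Fr g₀) :
    HasDerivAt (fun t => (kS g₀ (pull g (W.dfo t)) i j : C(Fr g₀, ℝ)) f)
      (((∑ m, wS g₀ W m * H442.Hd g₀ m (kS g₀ (pull g (W.dfo t)) i j)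
        + ∑ m, H442.Hd g₀ i (wS g₀ W m) *
            ((if m = j then 1 else 0) + kS g₀ (pull g (W.dfo t)) m j)
        + ∑ m, H442.Hd g₀ j (wS g₀ W m) *
            ((if i = m then 1 else 0) + kS g₀ (pull g (W.dfo t)) i m) : SmFr g₀) :
        C(Fr g₀, ℝ)) f) t := by
  have h1 := (hasDerivAt_frG (g₀ := g₀) W g i j f t).sub_const (if i = j then (1 : ℝ) else 0)
  have e : (fun t => (kS g₀ (pull g (W.dfo t)) i j : C(Fr g₀, ℝ)) f) = fun t =>
      frG g₀ (pull g (W.dfo t)) i j f - if i = j then (1 : ℝ) else 0 := by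
    funext t
    exact kS_apply _ i j f
  rw [e]
  refine h1.congr_deriv ?_
  have hc : ∀ (p : Prop) [Decidable p] (x : SmFr g₀) , (((if p then (1 : SmFr g₀) else 0) + x :
      SmFr g₀) : C(Fr g₀, ℝ)) f = (if p then (1 : ℝ) else 0) + (x : C(Fr g₀, ℝ)) f := by
    intro p _ x
    split_ifs <;> rfl
  simp only [Subalgebra.coe_add, Subalgebra.coe_mul, ContinuousMap.add_apply,
    ContinuousMap.mul_apply, AddSubmonoidClass.coe_finsetSum, ContinuousMap.coe_sum,
    Finset.sum_apply, kS_apply, Hd_kS]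
  congr 1
  · congr 1
    refine Finset.sum_congr rfl fun m _ => ?_
    have h2 := hc (m = j) 0
    rw [add_zero] at h2
    rw [h2]
    change _ = dZ (horZ g₀ (Pi.single i 1)) (frW g₀ W m) f * _
    simp only [ZeroMemClass.coe_zero, ContinuousMap.zero_apply, add_zero, add_sub_cancel]
  · refine Finset.sum_congr rfl fun m _ => ?_
    have h2 := hc (i = m) 0
    rw [add_zero] at h2
    rw [h2]
    change _ = dZ (horZ g₀ (Pi.single j 1)) (frW g₀ W m) f * _
    simp only [ZeroMemClass.coe_zero, ContinuousMap.zero_apply, add_zero, add_sub_cancel]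

end Curve

end Vale.Agent.P207.H476
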