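import Vale.Agent.P207.H476.Lie
import Vale.Agent.P207.Q.H892.Meas

/-!
# P207 (helper476): equivariant families of functions on the frame bundle and vector fields
-/

open scoped Manifold ContDiff ENNReal Topology
open Bundle MeasureTheory Set Filter

noncomputable section

set_option maxSynthPendingDepth 3
set_option linter.unusedSectionVars false
set_option linter.unusedVariables false

namespace Vale.Agent.P207.H476

open Vale.Agent.P207.Q.Fl Vale.Agent.P207.Q
open Vale.Agent.P255 (RMetric coefIn Gam Riem IsGeo Metric IsGeodesic IsGeodesicOn toMetric coefL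
  trans cc chris chrisB chrisB_apply IsMetricOn two_le_infty covD)

variable {n : ℕ} {M : Type} [TopologicalSpace M] [ChartedSpace (EV n) M]
  [IsManifold 𝓘(ℝ, EV n) ∞ M] {g₀ : RMetric (EV n) M}

/-- equivariant families of functions -/
def Eqv (w : Fin n → Fr g₀ → ℝ) : Prop :=
  ∀ (B : Fr.On n) (f : Fr g₀) (i : Fin n), w i (Fr.rot B f) = ∑ a, B.1 a i * w a f

/-- the vector with the components `w` in the frame, in the chart at `a` -/
def vecA (w : Fin n → Fr g₀ → ℝ) (a : M) (f : Fr g₀) : EV n := ∑ m, w m f • (chF a f.1).2 m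

theorem on_rows (B : Fr.On n) (a i : Fin n) :
    ∑ m, B.1 a m * B.1 i m = if a = i then 1 else 0 := by
  have h1 := (Matrix.mem_orthogonalGroup_iff (Fin n) ℝ).1 B.2
  have h2 := congrFun (congrFun h1 a) i
  rw [Matrix.mul_apply, Matrix.one_apply] at h2
  exact h2

variable {w : Fin n → Fr g₀ → ℝ}

theorem vecA_rot (hw : Eqv w) (a : M) (B : Fr.On n) (f : Fr g₀) :
    vecA w a (Fr.rot B f) = vecA w a f := by
  have h1 : chF a (Fr.rot B f).1 = stR B.1 (chF a f.1) := chF_mulR a B.1 f.1
  unfold vecA
  rw [h1]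
  set e := (chF a f.1).2 with he
  have h2 : ∀ m, (stR B.1 (chF a f.1)).2 m = ∑ i, B.1 i m • e i := fun m => rfl
  simp only [h2, hw B f, Finset.smul_sum, smul_smul, Finset.sum_mul]
  rw [Finset.sum_comm]
  have h3 : ∀ i, ∑ m, (∑ c, B.1 c m * w c f * B.1 i m) • e i = w i f • e i := by
    intro i
    rw [← Finset.sum_smul, Finset.sum_comm]
    have h4 : ∀ c, ∑ m, B.1 c m * w c f * B.1 i m = (if c = i then w c f else 0) := by
      intro c
      have h5 := on_rows B c i
      calc ∑ m, B.1 c m * w c f * B.1 i m = (∑ m, B.1 c m * B.1 i m) * w c f := by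
            rw [Finset.sum_mul]
            exact Finset.sum_congr rfl fun m _ => by ring
        _ = _ := by rw [h5]; split_ifs <;> simp
    simp only [h4, Finset.sum_ite_eq', Finset.mem_univ, if_true]
  exact Finset.sum_congr rfl fun i _ => h3 i

theorem vecA_pt (hw : Eqv w) (a : M) {f f' : Fr g₀} (h : f.pt = f'.pt) :
    vecA w a f = vecA w a f' := by
  obtain ⟨B, rfl⟩ := Fr.exists_rot h
  exact (vecA_rot hw a B f).symm

theorem vecA_trans (a b : M) {f : Fr g₀} (ha : f.pt ∈ (chartAt (EV n) a).source)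
    (hb : f.pt ∈ (chartAt (EV n) b).source) :
    fderiv ℝ (trans (EV n) a b) (chF a f.1).1 (vecA w a f) = vecA w b f := by
  have h1 := trF_chF g₀ a b f ha hb
  unfold vecA
  rw [map_sum]
  refine Finset.sum_congr rfl fun m _ => ?_
  rw [map_smul]
  congr 1
  exact congrFun (congrArg Prod.snd h1) m

/-- a frame over a point -/
def frAt (g₀ : RMetric (EV n) M) (x : M) : Fr g₀ := (H892.exists_frame g₀ x).choose

theorem frAt_pt (x : M) : (frAt g₀ x).pt = x := (H892.exists_frame g₀ x).choose_spec

/-- **the vector field of an equivariant family of smooth functions** -/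
def vecF (hw : Eqv w) (hs : ∀ m, SmF (w m)) : VecF n M where
  W a u := vecA w a (frAt g₀ ((chartAt (EV n) a).symm u))
  smooth a := by
    intro u hu
    set f0 := frAt g₀ ((chartAt (EV n) a).symm u) with hf0
    have hpt : f0.pt = (chartAt (EV n) a).symm u := frAt_pt _
    have hs0 : f0.pt ∈ (chartAt (EV n) a).source := by
      rw [hpt]; exact (chartAt (EV n) a).map_target hu
    have hu0 : (chF a f0.1).1 = u := by
      change chartAt (EV n) a f0.pt = u
      rw [hpt, (chartAt (EV n) a).right_inv hu]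
    set e0 := (chF a f0.1).2 with he0
    have hy0 : (u, e0) ∈ dom g₀ a := by
      have h1 : chF a f0.1 ∈ gsDom ((mt g₀).coef a) (chartAt (EV n) a).target :=
        mem_gsDom_of_orth ((chartAt (EV n) a).map_source hs0) (orth_chF hs0)
      have h2 : chF a f0.1 = (u, e0) := Prod.ext hu0 rfl
      rw [h2] at h1
      exact h1
    have hcont : ContinuousAt (fun u' : EV n => ((u', e0) : St (Fin n) n)) u :=
      continuousAt_id.prodMk continuousAt_const
    have hnear : ∀ᶠ u' in 𝓝 u, ((u', e0) : St (Fin n) n) ∈ dom g₀ a :=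
      hcont.eventually ((isOpen_dom a).mem_nhds hy0)
    have hsm : ContDiffAt ℝ ∞ (fun u' : EV n => ((u', e0) : St (Fin n) n)) u :=
      contDiffAt_id.prodMk contDiffAt_const
    have h3 : ContDiffAt ℝ ∞ (fun u' : EV n => ∑ m, rd (w m) a (u', e0) •
        (gsSt ((mt g₀).coef a) (u', e0)).2 m) u := by
      refine ContDiffAt.sum fun m _ => ?_
      have h4 : ContDiffAt ℝ ∞ (fun u' : EV n => rd (w m) a (u', e0)) u :=
        ContDiffAt.comp (g := rd (w m) a) (f := fun u' : EV n => ((u', e0) : St (Fin n) n)) u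
          ((hs m).contDiffAt hy0) hsm
      have h5 : ContDiffAt ℝ ∞ (fun u' : EV n => gsSt ((mt g₀).coef a) (u', e0)) u :=
        ContDiffAt.comp (g := gsSt ((mt g₀).coef a))
          (f := fun u' : EV n => ((u', e0) : St (Fin n) n)) u
          (contDiffAt_gsSt ((mt g₀).isMetricOn a) hy0) hsm
      exact h4.smul (contDiffAt_pi.1 h5.snd m)
    refine (h3.congr_of_eventuallyEq ?_).contDiffWithinAt
    filter_upwards [hnear] with u' hu'
    have h6 : ∀ m, rd (w m) a (u', e0) = w m (frOf g₀ a (u', e0) hu') := fun m => rd_of_mem _ hu'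
    simp only [h6]
    have h7 : chF a (frOf g₀ a (u', e0) hu').1 = gsSt ((mt g₀).coef a) (u', e0) := chF_frOf a hu'
    rw [← h7]
    refine vecA_pt hw a ?_
    rw [frAt_pt]
    have h8 : chartAt (EV n) a (frOf g₀ a (u', e0) hu').pt = u' := congrArg Prod.fst h7
    have h9 := (chartAt (EV n) a).left_inv (frOf_pt a hu')
    rw [← h9, h8]
  compat a b u hu hb := by
    set f0 := frAt g₀ ((chartAt (EV n) a).symm u) with hf0
    have hpt : f0.pt = (chartAt (EV n) a).symm u := frAt_pt _
    have hs0 : f0.pt ∈ (chartAt (EV n) a).source := by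
      rw [hpt]; exact (chartAt (EV n) a).map_target hu
    have hb0 : f0.pt ∈ (chartAt (EV n) b).source := by rw [hpt]; exact hb
    have hu0 : (chF a f0.1).1 = u := by
      change chartAt (EV n) a f0.pt = u
      rw [hpt, (chartAt (EV n) a).right_inv hu]
    have h1 := vecA_trans (w := w) a b hs0 hb0
    rw [hu0] at h1
    rw [h1]
    refine vecA_pt hw b ?_
    rw [hpt, frAt_pt]
    simp only [P255.trans]
    rw [(chartAt (EV n) b).left_inv hb]

theorem vecF_W (hw : Eqv w) (hs : ∀ m, SmF (w m)) {a : M} {f : Fr g₀}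
    (ha : f.pt ∈ (chartAt (EV n) a).source) :
    (vecF hw hs).W a (chF a f.1).1 = ∑ m, w m f • (chF a f.1).2 m := by
  refine vecA_pt hw a ?_
  rw [frAt_pt]
  exact (chartAt (EV n) a).left_inv ha

/-- the components of the vector field are the given functions -/
theorem frW_vecF (hw : Eqv w) (hs : ∀ m, SmF (w m)) (m : Fin n) (f : Fr g₀) :
    frW g₀ (vecF hw hs) m f = w m f := by
  have ha : f.pt ∈ (chartAt (EV n) f.pt).source := mem_chart_source _ _
  rw [frW_eq _ m ha, vecF_W hw hs ha]
  have ho : ∀ l, (mt g₀).coef f.pt (chF f.pt f.1).1 ((chF f.pt f.1).2 l) ((chF f.pt f.1).2 m) =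
      if l = m then 1 else 0 := fun l => orth_chF ha l m
  simp only [map_sum, map_smul, sum_apply, smul_apply, smul_eq_mul, ho, mul_ite, mul_one,
    mul_zero, Finset.sum_ite_eq', Finset.mem_univ, if_true]

end Vale.Agent.P207.H476
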