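import Vale.Agent.P207.H476.Iso2
import Vale.Agent.P207.Q.Flow

/-!
# P207 (helper476): flows of smooth vector fields on a closed manifold, pull-back of metrics
-/

open scoped Manifold ContDiff ENNReal Topology
open Bundle MeasureTheory Set Filter

noncomputable section

set_option maxSynthPendingDepth 3
set_option linter.unusedSectionVars false
set_option linter.unusedVariables false

namespace Vale.Agent.P207.H476

open Vale.Agent.P207.Q.Fl
open Vale.Agent.P255 (RMetric coefIn Gam Riem IsGeo Metric IsGeodesic IsGeodesicOn toMetric coefL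
  trans cc chris chrisB chrisB_apply IsMetricOn two_le_infty)

/-- the charts of `M`, as a coordinate system -/
def mSys (n : ℕ) (M : Type) [TopologicalSpace M] [ChartedSpace (EV n) M]
    [IsManifold 𝓘(ℝ, EV n) ∞ M] : CSys M (EV n) M where
  S a := (chartAt (EV n) a).source
  O a := (chartAt (EV n) a).target
  c a := chartAt (EV n) a
  inv a := (chartAt (EV n) a).symm
  τ a b := trans (EV n) a b
  W a b := (chartAt (EV n) a).target ∩ (chartAt (EV n) a).symm ⁻¹' (chartAt (EV n) b).source
  isOpen_S a := (chartAt (EV n) a).open_source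
  isOpen_O a := (chartAt (EV n) a).open_target
  cover x := ⟨x, mem_chart_source _ _⟩
  mem_O a x h := (chartAt (EV n) a).map_source h
  left a x h := (chartAt (EV n) a).left_inv h
  cont a := (chartAt (EV n) a).continuousOn
  contI a := by
    rw [(chartAt (EV n) a).image_source_eq_target]
    exact (chartAt (EV n) a).continuousOn_symm
  isOpen_W a b := (chartAt (EV n) a).isOpen_inter_preimage_symm (chartAt (EV n) b).open_source
  smooth_τ a b := fun u hu => (P255.contDiffAt_trans_chart a b hu.1 hu.2).contDiffWithinAt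
  mem_W a b x ha hb := ⟨(chartAt (EV n) a).map_source ha, by
    change (chartAt (EV n) a).symm (chartAt (EV n) a x) ∈ (chartAt (EV n) b).source
    rw [(chartAt (EV n) a).left_inv ha]; exact hb⟩
  τ_c a b x ha hb := by
    simp only [P255.trans]
    rw [(chartAt (EV n) a).left_inv ha]

/-- smooth vector fields on `M`, given by their components in the charts -/
structure VecF (n : ℕ) (M : Type) [TopologicalSpace M] [ChartedSpace (EV n) M] where
  W : M → EV n → EV n
  smooth : ∀ a, ContDiffOn ℝ ∞ (W a) (chartAt (EV n) a).target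
  compat : ∀ (a b : M) (u : EV n), u ∈ (chartAt (EV n) a).target →
    (chartAt (EV n) a).symm u ∈ (chartAt (EV n) b).source →
    fderiv ℝ (trans (EV n) a b) u (W a u) = W b (trans (EV n) a b u)

variable {n : ℕ} {M : Type} [TopologicalSpace M] [ChartedSpace (EV n) M]
  [IsManifold 𝓘(ℝ, EV n) ∞ M]

/-- plots of `M` -/
theorem at_symm (a : M) {u : EV n} (hu : u ∈ (chartAt (EV n) a).target) :
    (mSys n M).dif.At (chartAt (EV n) a).symm u := by
  refine (mSys n M).at_of ?_
  filter_upwards [(chartAt (EV n) a).open_target.mem_nhds hu] with y hy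
  refine ⟨(chartAt (EV n) a).continuousAt_symm hy, a, (chartAt (EV n) a).map_target hy, ?_⟩
  refine (contDiffAt_id (𝕜 := ℝ) (x := y)).congr_of_eventuallyEq ?_
  filter_upwards [(chartAt (EV n) a).open_target.mem_nhds hy] with z hz
  exact (chartAt (EV n) a).right_inv hz

/-- the vector field in the flow library -/
def VecF.vf (W : VecF n M) : (mSys n M).VF where
  f := W.W
  smooth := W.smooth
  compat a b x ha hb := by
    have h1 := W.compat a b (chartAt (EV n) a x) ((chartAt (EV n) a).map_source ha)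
      (by rw [(chartAt (EV n) a).left_inv ha]; exact hb)
    have h2 : trans (EV n) a b (chartAt (EV n) a x) = chartAt (EV n) b x := by
      simp only [P255.trans]
      rw [(chartAt (EV n) a).left_inv ha]
    rw [h2] at h1
    exact h1
  pres a y r s hr hs h0 h := by
    have e : (mSys n M).c a '' (mSys n M).S a = (chartAt (EV n) a).target :=
      (chartAt (EV n) a).image_source_eq_target
    rw [e]
    exact fun t ht => (h t ht).1

section Calc

variable {E : Type} [NormedAddCommGroup E] [NormedSpace ℝ E]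

/-- derivative of the pull-back of a form by a one-parameter family starting at the identity -/
theorem hasDerivAt_lie {F : ℝ × E → E} {X : E → E} {G : E → E →L[ℝ] E →L[ℝ] ℝ} {u : E}
    (hF : ContDiffAt ℝ ∞ F (0, u)) (hF0 : ∀ᶠ u' in 𝓝 u, F (0, u') = u')
    (hF1 : ∀ᶠ u' in 𝓝 u, HasDerivAt (fun t => F (t, u')) (X u') 0)
    (hX : DifferentiableAt ℝ X u) (hG : DifferentiableAt ℝ G u) (v w : E) :
    HasDerivAt (fun t => G (F (t, u)) (fderiv ℝ F (t, u) (0, v)) (fderiv ℝ F (t, u) (0, w)))
      (fderiv ℝ G u (X u) v w + G u (fderiv ℝ X u v) w + G u v (fderiv ℝ X u w)) 0 := by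
  have hu0 : F (0, u) = u := hF0.self_of_nhds
  have hFt : ∀ᶠ u' in 𝓝 u, fderiv ℝ F (0, u') (1, 0) = X u' := by
    have h1 : ∀ᶠ q : ℝ × E in 𝓝 ((0 : ℝ), u), DifferentiableAt ℝ F q := by
      have h2 : ContDiffAt ℝ 1 F (0, u) := hF.of_le (by exact_mod_cast le_top)
      filter_upwards [h2.eventually (by simp)] with q hq
      exact hq.differentiableAt (by simp)
    have h3 : ContinuousAt (fun u' : E => ((0 : ℝ), u')) u :=
      continuousAt_const.prodMk continuousAt_id
    filter_upwards [h3.eventually h1, hF1] with u' h4 h5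
    have h6 : HasDerivAt (fun t : ℝ => ((t, u') : ℝ × E)) ((1 : ℝ), (0 : E)) 0 :=
      (hasDerivAt_id _).prodMk (hasDerivAt_const _ u')
    have h7 := HasFDerivAt.comp_hasDerivAt (l := F) (f := fun t : ℝ => ((t, u') : ℝ × E)) (0 : ℝ)
      h4.hasFDerivAt h6
    exact h7.unique h5
  have hc1 : ContDiffAt ℝ ∞ (fderiv ℝ F) (0, u) := hF.fderiv_right (m := ∞) (by simp)
  have hD2 : HasFDerivAt (fderiv ℝ F) (fderiv ℝ (fderiv ℝ F) (0, u)) (0, u) :=
    (hc1.differentiableAt (by simp)).hasFDerivAt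
  have hsym : ∀ p q, fderiv ℝ (fderiv ℝ F) (0, u) p q = fderiv ℝ (fderiv ℝ F) (0, u) q p :=
    fun p q => (hF.isSymmSndFDerivAt
      (by simpa only [minSmoothness_of_isRCLikeNormedField] using two_le_infty)) p q
  have hmix : ∀ x : E, fderiv ℝ (fderiv ℝ F) (0, u) (1, 0) (0, x) = fderiv ℝ X u x := by
    intro x
    rw [hsym]
    have h1 : HasFDerivAt (fun u' : E => ((0 : ℝ), u')) (ContinuousLinearMap.inr ℝ ℝ E) u :=
      hasFDerivAt_prodMk_right (0 : ℝ) u
    have h2 := (HasFDerivAt.comp (g := fderiv ℝ F) (f := fun u' : E => ((0 : ℝ), u')) u hD2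
      h1).clm_apply (hasFDerivAt_const ((1 : ℝ), (0 : E)) u)
    have h3 : HasFDerivAt (fun u' : E => fderiv ℝ F (0, u') (1, 0)) (fderiv ℝ X u) u :=
      hX.hasFDerivAt.congr_of_eventuallyEq hFt
    have h4 := congrArg (fun L : E →L[ℝ] E => L x) (h2.unique h3)
    simpa using h4
  have hD : ∀ x : E, HasDerivAt (fun t => fderiv ℝ F (t, u) (0, x)) (fderiv ℝ X u x) 0 := by
    intro x
    have h6 : HasDerivAt (fun t : ℝ => ((t, u) : ℝ × E)) ((1 : ℝ), (0 : E)) 0 :=
      (hasDerivAt_id _).prodMk (hasDerivAt_const _ u)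
    have h7 := HasFDerivAt.comp_hasDerivAt (l := fderiv ℝ F) (f := fun t : ℝ => ((t, u) : ℝ × E))
      (0 : ℝ) hD2 h6
    have h1 := h7.clm_apply (hasDerivAt_const (0 : ℝ) ((0 : ℝ), x))
    refine h1.congr_deriv ?_
    simp [hmix x]
  have hg : HasDerivAt (fun t => G (F (t, u))) (fderiv ℝ G u (X u)) 0 := by
    have h1 : HasFDerivAt G (fderiv ℝ G u) (F (0, u)) := by
      rw [hu0]
      exact hG.hasFDerivAt
    exact HasFDerivAt.comp_hasDerivAt (l := G) (f := fun t : ℝ => F (t, u)) (0 : ℝ) h1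
      hF1.self_of_nhds
  have hid : ∀ x : E, fderiv ℝ F (0, u) (0, x) = x := by
    intro x
    have h1 : HasFDerivAt (fun u' : E => ((0 : ℝ), u')) (ContinuousLinearMap.inr ℝ ℝ E) u :=
      hasFDerivAt_prodMk_right (0 : ℝ) u
    have h2 := HasFDerivAt.comp (g := F) (f := fun u' : E => ((0 : ℝ), u')) u
      (hF.differentiableAt (by simp)).hasFDerivAt h1
    have h3 : HasFDerivAt (F ∘ fun u' : E => ((0 : ℝ), u')) (ContinuousLinearMap.id ℝ E) u :=
      (hasFDerivAt_id u).congr_of_eventuallyEq hF0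
    have h4 := congrArg (fun L : E →L[ℝ] E => L x) (h2.unique h3)
    simpa using h4
  have hfin := (hg.clm_apply (hD v)).clm_apply (hD w)
  refine hfin.congr_deriv ?_
  simp only [hu0, hid, add_apply]

end Calc

section Flow

variable [CompactSpace M] [T2Space M] (W : VecF n M)

/-- the flow of `W` -/
def VecF.fl (t : ℝ) (x : M) : M := CSys.flow W.vf t x

theorem VecF.fl_zero (x : M) : W.fl 0 x = x := CSys.flow_zero W.vf x

theorem VecF.fl_add (s t : ℝ) (x : M) : W.fl s (W.fl t x) = W.fl (s + t) x :=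
  CSys.flow_flow W.vf s t x

theorem VecF.continuous_fl : Continuous (fun q : ℝ × M => W.fl q.1 q.2) :=
  CSys.continuous_flow W.vf

theorem VecF.hasDerivAt_fl (a x : M) (t : ℝ) (h : W.fl t x ∈ (chartAt (EV n) a).source) :
    HasDerivAt (fun r => chartAt (EV n) a (W.fl r x)) (W.W a (chartAt (EV n) a (W.fl t x))) t :=
  CSys.hasDerivAt_flow W.vf x t (i := a) h

/-- joint smoothness of the flow, in charts -/
theorem VecF.smooth_fl (a b : M) {t : ℝ} {u : EV n} (hu : u ∈ (chartAt (EV n) a).target)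
    (hb : W.fl t ((chartAt (EV n) a).symm u) ∈ (chartAt (EV n) b).source) :
    ContDiffAt ℝ ∞ (fun q : ℝ × EV n => rep (W.fl q.1) a b q.2) (t, u) := by
  have h2 : ((Dif.lin ℝ).prod (mSys n M).dif).At
      (fun q : ℝ × EV n => (q.1, (chartAt (EV n) a).symm q.2)) (t, u) := by
    refine ⟨Sm.of_contDiff contDiff_fst _, ?_⟩
    exact (mSys n M).dif.comp (u := (chartAt (EV n) a).symm) (g := Prod.snd) (x := (t, u))
      (at_symm a hu) (Sm.of_contDiff contDiff_snd _)
  have h3 := CSys.map_flow W.vf h2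
  have h4 := h3.self_of_nhds.2 b
  exact h4 hb

theorem VecF.smM_fl (t : ℝ) : SmM n (W.fl t) where
  cont := CSys.continuous_flow_right W.vf t
  smooth a b u hu hb := by
    have h1 := W.smooth_fl a b hu hb
    have h2 : ContDiffAt ℝ ∞ (fun v : EV n => (t, v)) u := contDiffAt_const.prodMk contDiffAt_id
    exact ContDiffAt.comp (g := fun q : ℝ × EV n => rep (W.fl q.1) a b q.2) u h1 h2

/-- the flow of `W` at time `t` as a diffeomorphism -/
def VecF.dfo (t : ℝ) : Dfo n M where
  h :=
    { toFun := W.fl t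
      invFun := W.fl (-t)
      left_inv := fun x => by rw [W.fl_add, neg_add_cancel, W.fl_zero]
      right_inv := fun x => by rw [W.fl_add, add_neg_cancel, W.fl_zero]
      continuous_toFun := CSys.continuous_flow_right W.vf t
      continuous_invFun := CSys.continuous_flow_right W.vf (-t) }
  sm := W.smM_fl t
  sm' := W.smM_fl (-t)

theorem VecF.dfo_apply (t : ℝ) (x : M) : (W.dfo t).h x = W.fl t x := rfl

theorem VecF.eventually_fl (a b : M) {t : ℝ} {u : EV n} (hu : u ∈ (chartAt (EV n) a).target)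
    (hb : W.fl t ((chartAt (EV n) a).symm u) ∈ (chartAt (EV n) b).source) :
    ∀ᶠ q : ℝ × EV n in 𝓝 (t, u), q.2 ∈ (chartAt (EV n) a).target ∧
      W.fl q.1 ((chartAt (EV n) a).symm q.2) ∈ (chartAt (EV n) b).source := by
  have h1 : ContinuousAt (fun q : ℝ × EV n => W.fl q.1 ((chartAt (EV n) a).symm q.2)) (t, u) := by
    have h2 : ContinuousAt (fun q : ℝ × EV n => (q.1, (chartAt (EV n) a).symm q.2)) (t, u) :=
      continuousAt_fst.prodMk (ContinuousAt.comp (g := (chartAt (EV n) a).symm)
        ((chartAt (EV n) a).continuousAt_symm hu) continuousAt_snd)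
    exact ContinuousAt.comp (g := fun q : ℝ × M => W.fl q.1 q.2) W.continuous_fl.continuousAt h2
  have h3 : ∀ᶠ q : ℝ × EV n in 𝓝 (t, u), q.2 ∈ (chartAt (EV n) a).target :=
    continuousAt_snd.preimage_mem_nhds ((chartAt (EV n) a).open_target.mem_nhds hu)
  have h4 : ∀ᶠ q : ℝ × EV n in 𝓝 (t, u),
      W.fl q.1 ((chartAt (EV n) a).symm q.2) ∈ (chartAt (EV n) b).source :=
    h1.preimage_mem_nhds ((chartAt (EV n) b).open_source.mem_nhds hb)
  filter_upwards [h3, h4] with q h5 h6
  exact ⟨h5, h6⟩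

/-- the space derivative of the flow -/
theorem VecF.fderiv_fl (a b : M) {t : ℝ} {u : EV n} (hu : u ∈ (chartAt (EV n) a).target)
    (hb : W.fl t ((chartAt (EV n) a).symm u) ∈ (chartAt (EV n) b).source) :
    fderiv ℝ (rep (W.fl t) a b) u =
      (fderiv ℝ (fun q : ℝ × EV n => rep (W.fl q.1) a b q.2) (t, u)).comp
        (ContinuousLinearMap.inr ℝ ℝ (EV n)) := by
  have h1 := ((W.smooth_fl a b hu hb).differentiableAt (by simp)).hasFDerivAt
  have h2 : HasFDerivAt (fun v : EV n => ((t, v) : ℝ × EV n))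
      (ContinuousLinearMap.inr ℝ ℝ (EV n)) u := hasFDerivAt_prodMk_right t u
  exact (HasFDerivAt.comp (g := fun q : ℝ × EV n => rep (W.fl q.1) a b q.2) u h1 h2).fderiv

/-- joint smoothness of the space derivative -/
theorem VecF.smooth_fderiv_fl (a b : M) {t : ℝ} {u : EV n} (hu : u ∈ (chartAt (EV n) a).target)
    (hb : W.fl t ((chartAt (EV n) a).symm u) ∈ (chartAt (EV n) b).source) :
    ContDiffAt ℝ ∞ (fun q : ℝ × EV n => fderiv ℝ (rep (W.fl q.1) a b) q.2) (t, u) := by
  have h1 : ContDiffAt ℝ ∞ (fderiv ℝ (fun q : ℝ × EV n => rep (W.fl q.1) a b q.2)) (t, u) :=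
    (W.smooth_fl a b hu hb).fderiv_right (m := ∞) (by simp)
  have h2 : ContDiffAt ℝ ∞ (fun q : ℝ × EV n =>
      (fderiv ℝ (fun q : ℝ × EV n => rep (W.fl q.1) a b q.2) q).comp
        (ContinuousLinearMap.inr ℝ ℝ (EV n))) (t, u) := h1.clm_comp contDiffAt_const
  refine h2.congr_of_eventuallyEq ?_
  filter_upwards [W.eventually_fl a b hu hb] with q hq
  exact W.fderiv_fl a b hq.1 hq.2

/-- the coefficients of the pull-back are jointly smooth -/
theorem VecF.smooth_pb (g : Metric (EV n) M) (a : M) {t : ℝ} {u : EV n}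
    (hu : u ∈ (chartAt (EV n) a).target) :
    ContDiffAt ℝ ∞ (fun q : ℝ × EV n => (pb g (W.dfo q.1)).coef a q.2) (t, u) := by
  set b := W.fl t ((chartAt (EV n) a).symm u) with hbd
  have hb : W.fl t ((chartAt (EV n) a).symm u) ∈ (chartAt (EV n) b).source := mem_chart_source _ _
  have h1 : ContDiffAt ℝ ∞ (fun q : ℝ × EV n => g.coef b (rep (W.fl q.1) a b q.2)) (t, u) :=
    ContDiffAt.comp (g := g.coef b) (t, u) ((g.smooth b).contDiffAt
      ((chartAt (EV n) b).open_target.mem_nhds (rep_mem a b hb))) (W.smooth_fl a b hu hb)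
  have h2 := W.smooth_fderiv_fl a b hu hb
  have h3 : ContDiffAt ℝ ∞ (fun q : ℝ × EV n => ((ContinuousLinearMap.compL ℝ (EV n) (EV n) ℝ).flip
      (fderiv ℝ (rep (W.fl q.1) a b) q.2)).comp ((g.coef b (rep (W.fl q.1) a b q.2)).comp
        (fderiv ℝ (rep (W.fl q.1) a b) q.2))) (t, u) :=
    ((ContinuousLinearMap.contDiff _).contDiffAt.comp (t, u) h2).clm_comp (h1.clm_comp h2)
  refine h3.congr_of_eventuallyEq ?_
  filter_upwards [W.eventually_fl a b hu hb] with q hq
  rw [pb_coef g (W.dfo q.1) a b hq.1 hq.2]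
  ext v w
  rfl

/-- the Lie derivative of a metric, in coordinates -/
def lieC (G : EV n → EV n →L[ℝ] EV n →L[ℝ] ℝ) (X : EV n → EV n) (u v w : EV n) : ℝ :=
  fderiv ℝ G u (X u) v w + G u (fderiv ℝ X u v) w + G u v (fderiv ℝ X u w)

/-- derivative of the pull-back at time zero -/
theorem VecF.hasDerivAt_pb_zero (g : Metric (EV n) M) (a : M) {u : EV n}
    (hu : u ∈ (chartAt (EV n) a).target) (v w : EV n) :
    HasDerivAt (fun t => (pb g (W.dfo t)).coef a u v w) (lieC (g.coef a) (W.W a) u v w) 0 := by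
  have hx : (chartAt (EV n) a).symm u ∈ (chartAt (EV n) a).source := (chartAt (EV n) a).map_target hu
  have hb : W.fl 0 ((chartAt (EV n) a).symm u) ∈ (chartAt (EV n) a).source := by
    rw [W.fl_zero]; exact hx
  have hfin := hasDerivAt_lie (F := fun q : ℝ × EV n => rep (W.fl q.1) a a q.2) (X := W.W a)
    (G := g.coef a) (u := u) (W.smooth_fl a a hu hb) (by
      filter_upwards [(chartAt (EV n) a).open_target.mem_nhds hu] with u' hu'
      change chartAt (EV n) a (W.fl 0 ((chartAt (EV n) a).symm u')) = u'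
      rw [W.fl_zero, (chartAt (EV n) a).right_inv hu']) (by
      filter_upwards [(chartAt (EV n) a).open_target.mem_nhds hu] with u' hu'
      have h1 := W.hasDerivAt_fl a ((chartAt (EV n) a).symm u') 0 (by
        rw [W.fl_zero]; exact (chartAt (EV n) a).map_target hu')
      rw [W.fl_zero, (chartAt (EV n) a).right_inv hu'] at h1
      exact h1)
    (((W.smooth a).contDiffAt ((chartAt (EV n) a).open_target.mem_nhds hu)).differentiableAt
      (by simp)) ((g.isMetricOn a).differentiableAt hu) v w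
  have hev' : ∀ᶠ t : ℝ in 𝓝 0, ((t, u) : ℝ × EV n).2 ∈ (chartAt (EV n) a).target ∧
      W.fl t ((chartAt (EV n) a).symm u) ∈ (chartAt (EV n) a).source := by
    have h3 : ContinuousAt (fun t : ℝ => ((t, u) : ℝ × EV n)) 0 :=
      continuousAt_id.prodMk continuousAt_const
    exact h3.eventually (W.eventually_fl a a hu hb)
  refine hfin.congr_of_eventuallyEq ?_
  filter_upwards [hev'] with t ht
  rw [pb_coef g (W.dfo t) a a hu ht.2]
  have h1 := W.fderiv_fl a a hu ht.2
  change g.coef a (rep (W.fl t) a a u) (fderiv ℝ (rep (W.fl t) a a) u v)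
    (fderiv ℝ (rep (W.fl t) a a) u w) = _
  rw [h1]
  rfl

theorem VecF.isIso_add (g : Metric (EV n) M) (s t : ℝ) :
    IsIso (pb (pb g (W.dfo t)) (W.dfo s)) g (W.dfo (t + s)) := by
  have h1 := (isIso_pb g (W.dfo t)).comp (isIso_pb (pb g (W.dfo t)) (W.dfo s))
  intro a b u hu hb v w
  have h2 : (rep ((W.dfo t).comp (W.dfo s)).h a b : EV n → EV n) =
      rep (W.dfo (t + s)).h a b := by
    funext x
    change chartAt (EV n) b (W.fl t (W.fl s ((chartAt (EV n) a).symm x))) =
      chartAt (EV n) b (W.fl (t + s) ((chartAt (EV n) a).symm x))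
    rw [W.fl_add]
  have h3 := h1 a b u hu (by
    change W.fl t (W.fl s ((chartAt (EV n) a).symm u)) ∈ (chartAt (EV n) b).source
    rw [W.fl_add]; exact hb) v w
  rw [h2] at h3
  exact h3

/-- derivative of the pull-back at any time -/
theorem VecF.hasDerivAt_pb (g : Metric (EV n) M) (a : M) {u : EV n}
    (hu : u ∈ (chartAt (EV n) a).target) (v w : EV n) (t : ℝ) :
    HasDerivAt (fun t => (pb g (W.dfo t)).coef a u v w)
      (lieC ((pb g (W.dfo t)).coef a) (W.W a) u v w) t := by
  have h1 := W.hasDerivAt_pb_zero (pb g (W.dfo t)) a hu v w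
  have h1' : HasDerivAt (fun s => (pb (pb g (W.dfo t)) (W.dfo s)).coef a u v w)
      (lieC ((pb g (W.dfo t)).coef a) (W.W a) u v w) (t - t) := by rw [sub_self]; exact h1
  have h3 := h1'.comp_sub_const t t
  refine h3.congr_of_eventuallyEq ?_
  filter_upwards with r
  have h4 := (W.isIso_add g (r - t) t)
  have h5 : t + (r - t) = r := by ring
  rw [h5] at h4
  change _ = (pb (pb g (W.dfo t)) (W.dfo (r - t))).coef a u v w
  rw [h4.coef_eq (isIso_pb g (W.dfo r)) a hu]

end Flow

end Vale.Agent.P207.H476
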