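import Vale.Agent.P207.Base
import Vale.Agent.P207.BlkV
import Vale.Agent.P207.BlkD1
import Vale.Agent.P207.BlkF

/-!
# P207 (helper476): diffeomorphisms in charts, pull-back of metrics, isometries
-/

open scoped Manifold ContDiff ENNReal Topology
open Bundle MeasureTheory Set Filter

noncomputable section

set_option maxSynthPendingDepth 3
set_option linter.unusedSectionVars false
set_option linter.unusedVariables false

namespace Vale.Agent.P207.H476

open Vale.Agent.P255 (RMetric coefIn Gam Riem IsGeo Metric IsGeodesic IsGeodesicOn toMetric coefL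
  trans cc chris chrisB IsMetricOn)

variable {n : ℕ} {M : Type} [TopologicalSpace M] [ChartedSpace (EV n) M]

/-- the map `ψ` read in the charts at `a` and `b` -/
def rep (ψ : M → M) (a b : M) (u : EV n) : EV n :=
  chartAt (EV n) b (ψ ((chartAt (EV n) a).symm u))

/-- smooth maps `M → M` -/
structure SmM (n : ℕ) {M : Type} [TopologicalSpace M] [ChartedSpace (EV n) M] (ψ : M → M) :
    Prop where
  cont : Continuous ψ
  smooth : ∀ (a b : M) (u : EV n), u ∈ (chartAt (EV n) a).target →
    ψ ((chartAt (EV n) a).symm u) ∈ (chartAt (EV n) b).source → ContDiffAt ℝ ∞ (rep ψ a b) u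

/-- diffeomorphisms -/
structure Dfo (n : ℕ) (M : Type) [TopologicalSpace M] [ChartedSpace (EV n) M] where
  h : M ≃ₜ M
  sm : SmM n (h : M → M)
  sm' : SmM n (h.symm : M → M)

variable {ψ φ : M → M}

theorem eventually_rep (hφ : Continuous φ) (a b : M) {u : EV n}
    (hu : u ∈ (chartAt (EV n) a).target)
    (hb : φ ((chartAt (EV n) a).symm u) ∈ (chartAt (EV n) b).source) :
    ∀ᶠ x in 𝓝 u, x ∈ (chartAt (EV n) a).target ∧
      φ ((chartAt (EV n) a).symm x) ∈ (chartAt (EV n) b).source := by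
  have h1 : ContinuousAt (fun x => φ ((chartAt (EV n) a).symm x)) u :=
    hφ.continuousAt.comp ((chartAt (EV n) a).continuousAt_symm hu)
  filter_upwards [(chartAt (EV n) a).open_target.mem_nhds hu,
    h1.eventually ((chartAt (EV n) b).open_source.mem_nhds hb)] with x h2 h3
  exact ⟨h2, h3⟩

theorem rep_mem (a b : M) {u : EV n}
    (hb : φ ((chartAt (EV n) a).symm u) ∈ (chartAt (EV n) b).source) :
    rep φ a b u ∈ (chartAt (EV n) b).target := (chartAt (EV n) b).map_source hb

theorem symm_rep (a b : M) {u : EV n}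
    (hb : φ ((chartAt (EV n) a).symm u) ∈ (chartAt (EV n) b).source) :
    (chartAt (EV n) b).symm (rep φ a b u) = φ ((chartAt (EV n) a).symm u) :=
  (chartAt (EV n) b).left_inv hb

theorem rep_comp (a b c : M) {u : EV n}
    (hb : φ ((chartAt (EV n) a).symm u) ∈ (chartAt (EV n) b).source) :
    rep (fun x => ψ (φ x)) a c u = rep ψ b c (rep φ a b u) := by
  unfold rep
  rw [(chartAt (EV n) b).left_inv hb]

theorem SmM.differentiableAt (hφ : SmM n φ) {a b : M} {u : EV n}
    (hu : u ∈ (chartAt (EV n) a).target)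
    (hb : φ ((chartAt (EV n) a).symm u) ∈ (chartAt (EV n) b).source) :
    DifferentiableAt ℝ (rep φ a b) u := (hφ.smooth a b u hu hb).differentiableAt (by simp)

/-- chain rule -/
theorem fderiv_rep_comp (hψ : SmM n ψ) (hφ : SmM n φ) (a b c : M) {u : EV n}
    (hu : u ∈ (chartAt (EV n) a).target)
    (hb : φ ((chartAt (EV n) a).symm u) ∈ (chartAt (EV n) b).source)
    (hc : ψ (φ ((chartAt (EV n) a).symm u)) ∈ (chartAt (EV n) c).source) :
    fderiv ℝ (rep (fun x => ψ (φ x)) a c) u =
      (fderiv ℝ (rep ψ b c) (rep φ a b u)).comp (fderiv ℝ (rep φ a b) u) := by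
  have h1 := hφ.differentiableAt hu hb
  have h2 : DifferentiableAt ℝ (rep ψ b c) (rep φ a b u) :=
    hψ.differentiableAt (rep_mem a b hb) (by rw [symm_rep a b hb]; exact hc)
  have h3 := h2.hasFDerivAt.comp u h1.hasFDerivAt
  refine (h3.congr_of_eventuallyEq ?_).fderiv
  filter_upwards [eventually_rep hφ.cont a b hu hb] with x hx
  exact rep_comp a b c hx.2

theorem SmM.comp (hψ : SmM n ψ) (hφ : SmM n φ) : SmM n (fun x => ψ (φ x)) where
  cont := hψ.cont.comp hφ.cont
  smooth a c u hu hc := by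
    set b := φ ((chartAt (EV n) a).symm u) with hbdef
    have hb : φ ((chartAt (EV n) a).symm u) ∈ (chartAt (EV n) b).source := mem_chart_source _ _
    have h1 := hφ.smooth a b u hu hb
    have h2 : ContDiffAt ℝ ∞ (rep ψ b c) (rep φ a b u) :=
      hψ.smooth b c _ (rep_mem a b hb) (by rw [symm_rep a b hb]; exact hc)
    refine (h2.comp u h1).congr_of_eventuallyEq ?_
    filter_upwards [eventually_rep hφ.cont a b hu hb] with x hx
    exact rep_comp a b c hx.2

section Man

variable [IsManifold 𝓘(ℝ, EV n) ∞ M]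

theorem SmM.id : SmM n (fun x : M => x) where
  cont := continuous_id
  smooth a b u hu hb := P255.contDiffAt_trans_chart (E := EV n) a b hu hb

/-- the derivatives in different charts -/
theorem fderiv_rep_trans_left (hφ : SmM n φ) (a a' b : M) {u : EV n}
    (hu : u ∈ (chartAt (EV n) a).target)
    (ha : (chartAt (EV n) a).symm u ∈ (chartAt (EV n) a').source)
    (hb : φ ((chartAt (EV n) a).symm u) ∈ (chartAt (EV n) b).source) :
    fderiv ℝ (rep φ a b) u =
      (fderiv ℝ (rep φ a' b) (trans (EV n) a a' u)).comp (fderiv ℝ (trans (EV n) a a') u) :=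
  fderiv_rep_comp (φ := fun x => x) hφ SmM.id a a' b hu ha hb

theorem fderiv_rep_trans_right (hφ : SmM n φ) (a b b' : M) {u : EV n}
    (hu : u ∈ (chartAt (EV n) a).target)
    (hb : φ ((chartAt (EV n) a).symm u) ∈ (chartAt (EV n) b).source)
    (hb' : φ ((chartAt (EV n) a).symm u) ∈ (chartAt (EV n) b').source) :
    fderiv ℝ (rep φ a b') u =
      (fderiv ℝ (trans (EV n) b b') (rep φ a b u)).comp (fderiv ℝ (rep φ a b) u) :=
  fderiv_rep_comp (ψ := fun x => x) SmM.id hφ a b b' hu hb hb'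

theorem fderiv_rep_id (a : M) {u : EV n} (hu : u ∈ (chartAt (EV n) a).target) :
    fderiv ℝ (trans (EV n) a a) u = ContinuousLinearMap.id ℝ (EV n) := by
  ext1 v
  exact P255.fderiv_trans_self a hu v

/-- the derivative of a diffeomorphism is invertible -/
theorem Dfo.fderiv_left (ψ : Dfo n M) (a b : M) {u : EV n} (hu : u ∈ (chartAt (EV n) a).target)
    (hb : ψ.h ((chartAt (EV n) a).symm u) ∈ (chartAt (EV n) b).source) :
    (fderiv ℝ (rep ψ.h.symm b a) (rep ψ.h a b u)).comp (fderiv ℝ (rep ψ.h a b) u) =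
      ContinuousLinearMap.id ℝ (EV n) := by
  have h1 := fderiv_rep_comp ψ.sm' ψ.sm a b a hu hb (by
    rw [ψ.h.symm_apply_apply]; exact (chartAt (EV n) a).map_target hu)
  rw [← h1, ← fderiv_rep_id a hu]
  congr 1
  funext x
  simp only [rep, P255.trans, ψ.h.symm_apply_apply]

theorem Dfo.injective (ψ : Dfo n M) (a b : M) {u : EV n} (hu : u ∈ (chartAt (EV n) a).target)
    (hb : ψ.h ((chartAt (EV n) a).symm u) ∈ (chartAt (EV n) b).source) :
    Function.Injective (fderiv ℝ (rep ψ.h a b) u) := by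
  intro v w h
  have h1 := ψ.fderiv_left a b hu hb
  have h2 := congrArg (fun L : EV n →L[ℝ] EV n => L v) h1
  have h3 := congrArg (fun L : EV n →L[ℝ] EV n => L w) h1
  simp only [ContinuousLinearMap.comp_apply, ContinuousLinearMap.id_apply] at h2 h3
  rw [← h2, ← h3, h]

/-- the identity -/
def Dfo.refl (n : ℕ) (M : Type) [TopologicalSpace M] [ChartedSpace (EV n) M]
    [IsManifold 𝓘(ℝ, EV n) ∞ M] : Dfo n M where
  h := Homeomorph.refl M
  sm := SmM.id
  sm' := SmM.id

/-- the inverse -/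
def Dfo.symm (ψ : Dfo n M) : Dfo n M where
  h := ψ.h.symm
  sm := ψ.sm'
  sm' := ψ.sm

/-- the composition `ψ ∘ φ` -/
def Dfo.comp (ψ φ : Dfo n M) : Dfo n M where
  h := φ.h.trans ψ.h
  sm := ψ.sm.comp φ.sm
  sm' := φ.sm'.comp ψ.sm'

end Man

/-! ### pull-back -/

section Pull

variable [IsManifold 𝓘(ℝ, EV n) ∞ M]

/-- `ψ` is an isometry from `g₁` to `g₂` -/
def IsIso (g₁ g₂ : Metric (EV n) M) (ψ : Dfo n M) : Prop :=
  ∀ (a b : M) (u : EV n), u ∈ (chartAt (EV n) a).target →
    ψ.h ((chartAt (EV n) a).symm u) ∈ (chartAt (EV n) b).source → ∀ v w : EV n,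
    g₂.coef b (rep ψ.h a b u) (fderiv ℝ (rep ψ.h a b) u v) (fderiv ℝ (rep ψ.h a b) u w) =
      g₁.coef a u v w

/-- coefficients of the pull-back, with the chart at `b` in the target -/
def pbc (g : Metric (EV n) M) (ψ : Dfo n M) (a b : M) (u : EV n) : EV n →L[ℝ] EV n →L[ℝ] ℝ :=
  (g.coef b (rep ψ.h a b u)).bilinearComp (fderiv ℝ (rep ψ.h a b) u) (fderiv ℝ (rep ψ.h a b) u)

theorem pbc_eq (g : Metric (EV n) M) (ψ : Dfo n M) (a b b' : M) {u : EV n}
    (hu : u ∈ (chartAt (EV n) a).target)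
    (hb : ψ.h ((chartAt (EV n) a).symm u) ∈ (chartAt (EV n) b).source)
    (hb' : ψ.h ((chartAt (EV n) a).symm u) ∈ (chartAt (EV n) b').source) :
    pbc g ψ a b' u = pbc g ψ a b u := by
  have h1 := fderiv_rep_trans_right ψ.sm a b b' hu hb hb'
  have h2 : rep ψ.h a b' u = trans (EV n) b b' (rep ψ.h a b u) := by
    unfold rep P255.trans
    rw [(chartAt (EV n) b).left_inv hb]
  unfold pbc
  ext v w
  simp only [ContinuousLinearMap.bilinearComp_apply]
  rw [h1, h2]
  exact g.compat b b' (rep ψ.h a b u) (rep_mem a b hb) (by rw [symm_rep a b hb]; exact hb') _ _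

/-- the pull-back of a metric -/
def pb (g : Metric (EV n) M) (ψ : Dfo n M) : Metric (EV n) M where
  coef a u := pbc g ψ a (ψ.h ((chartAt (EV n) a).symm u)) u
  smooth a := by
    intro u hu
    refine ContDiffAt.contDiffWithinAt ?_
    set b := ψ.h ((chartAt (EV n) a).symm u) with hbdef
    have hb : ψ.h ((chartAt (EV n) a).symm u) ∈ (chartAt (EV n) b).source := mem_chart_source _ _
    have hs := ψ.sm.smooth a b u hu hb
    have h1 : ContDiffAt ℝ ∞ (fun x => g.coef b (rep ψ.h a b x)) u :=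
      ContDiffAt.comp (g := g.coef b) u ((g.smooth b).contDiffAt
        ((chartAt (EV n) b).open_target.mem_nhds (rep_mem a b hb))) hs
    have h2 : ContDiffAt ℝ ∞ (fderiv ℝ (rep ψ.h a b)) u := hs.fderiv_right (m := ∞) (by simp)
    have h3 : ContDiffAt ℝ ∞ (fun x => pbc g ψ a b x) u := by
      have e : (fun x => pbc g ψ a b x) = fun x => ((ContinuousLinearMap.compL ℝ (EV n) (EV n) ℝ).flip
          (fderiv ℝ (rep ψ.h a b) x)).comp ((g.coef b (rep ψ.h a b x)).comp
            (fderiv ℝ (rep ψ.h a b) x)) := by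
        funext x
        ext v w
        simp [pbc]
      rw [e]
      exact ((ContinuousLinearMap.contDiff _).contDiffAt.comp u h2).clm_comp (h1.clm_comp h2)
    refine h3.congr_of_eventuallyEq ?_
    filter_upwards [eventually_rep ψ.sm.cont a b hu hb] with x hx
    exact pbc_eq g ψ a b _ hx.1 hx.2 (mem_chart_source _ _)
  symm a u hu v w := by
    simp only [pbc, ContinuousLinearMap.bilinearComp_apply]
    exact g.symm _ _ (rep_mem a _ (mem_chart_source _ _)) _ _
  pos a u hu v hv := by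
    simp only [pbc, ContinuousLinearMap.bilinearComp_apply]
    refine g.pos _ _ (rep_mem a _ (mem_chart_source _ _)) _ ?_
    intro h
    exact hv (ψ.injective a _ hu (mem_chart_source _ _) (h.trans (map_zero _).symm))
  compat a a' u hu ha v w := by
    set b := ψ.h ((chartAt (EV n) a).symm u) with hbdef
    have e : (chartAt (EV n) a').symm (trans (EV n) a a' u) = (chartAt (EV n) a).symm u :=
      (chartAt (EV n) a').left_inv ha
    have hb : ψ.h ((chartAt (EV n) a).symm u) ∈ (chartAt (EV n) b).source := mem_chart_source _ _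
    have hb' : ψ.h ((chartAt (EV n) a').symm (trans (EV n) a a' u)) ∈ (chartAt (EV n) b).source := by
      rw [e]; exact hb
    have hu' : trans (EV n) a a' u ∈ (chartAt (EV n) a').target := (chartAt (EV n) a').map_source ha
    have e2 : ψ.h ((chartAt (EV n) a').symm (trans (EV n) a a' u)) = b := by rw [e]
    have e3 : rep ψ.h a' b (trans (EV n) a a' u) = rep ψ.h a b u := by
      unfold rep
      rw [e]
    rw [e2]
    simp only [pbc, ContinuousLinearMap.bilinearComp_apply]
    rw [fderiv_rep_trans_left ψ.sm a a' b hu ha hb, e3]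
    rfl

theorem pb_coef (g : Metric (EV n) M) (ψ : Dfo n M) (a b : M) {u : EV n}
    (hu : u ∈ (chartAt (EV n) a).target)
    (hb : ψ.h ((chartAt (EV n) a).symm u) ∈ (chartAt (EV n) b).source) :
    (pb g ψ).coef a u = pbc g ψ a b u :=
  pbc_eq g ψ a b _ hu hb (mem_chart_source _ _)

theorem isIso_pb (g : Metric (EV n) M) (ψ : Dfo n M) : IsIso (pb g ψ) g ψ := by
  intro a b u hu hb v w
  rw [pb_coef g ψ a b hu hb]
  rfl

/-- the pull-back as a Mathlib metric -/
def pull (g : RMetric (EV n) M) (ψ : Dfo n M) : RMetric (EV n) M := (pb (mt g) ψ).toR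

theorem pull_coef (g : RMetric (EV n) M) (ψ : Dfo n M) (a : M) {u : EV n}
    (hu : u ∈ (chartAt (EV n) a).target) :
    (mt (pull g ψ)).coef a u = (pb (mt g) ψ).coef a u := P255.coefL_toR _ a hu

theorem isIso_pull (g : RMetric (EV n) M) (ψ : Dfo n M) : IsIso (mt (pull g ψ)) (mt g) ψ := by
  intro a b u hu hb v w
  rw [pull_coef g ψ a hu]
  exact isIso_pb (mt g) ψ a b u hu hb v w

theorem IsIso.symm {g₁ g₂ : Metric (EV n) M} {ψ : Dfo n M} (h : IsIso g₁ g₂ ψ) :
    IsIso g₂ g₁ ψ.symm := by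
  intro b a u hu ha v w
  have hb : ψ.h ((chartAt (EV n) a).symm (rep ψ.symm.h b a u)) ∈ (chartAt (EV n) b).source := by
    rw [symm_rep b a ha]
    change ψ.h (ψ.h.symm _) ∈ _
    rw [ψ.h.apply_symm_apply]
    exact (chartAt (EV n) b).map_target hu
  have h1 := h a b (rep ψ.symm.h b a u) (rep_mem b a ha) hb
    (fderiv ℝ (rep ψ.symm.h b a) u v) (fderiv ℝ (rep ψ.symm.h b a) u w)
  have h2 := ψ.symm.fderiv_left b a hu ha
  have h3 := fun x : EV n => congrArg (fun L : EV n →L[ℝ] EV n => L x) h2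
  simp only [ContinuousLinearMap.comp_apply, ContinuousLinearMap.id_apply] at h3
  have e : rep ψ.h a b (rep ψ.symm.h b a u) = u := by
    unfold rep
    rw [(chartAt (EV n) a).left_inv ha]
    change chartAt (EV n) b (ψ.h (ψ.h.symm _)) = u
    rw [ψ.h.apply_symm_apply, (chartAt (EV n) b).right_inv hu]
  rw [← h1, e]
  have h4 : ∀ x, fderiv ℝ (rep ψ.h a b) (rep ψ.symm.h b a u) (fderiv ℝ (rep ψ.symm.h b a) u x) = x :=
    h3
  rw [h4, h4]

theorem IsIso.comp {g₁ g₂ g₃ : Metric (EV n) M} {ψ φ : Dfo n M} (h₂ : IsIso g₂ g₃ ψ)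
    (h₁ : IsIso g₁ g₂ φ) : IsIso g₁ g₃ (ψ.comp φ) := by
  intro a c u hu hc v w
  set b := φ.h ((chartAt (EV n) a).symm u) with hbdef
  have hb : φ.h ((chartAt (EV n) a).symm u) ∈ (chartAt (EV n) b).source := mem_chart_source _ _
  have h3 := fderiv_rep_comp ψ.sm φ.sm a b c hu hb hc
  have e : rep (ψ.comp φ).h a c u = rep ψ.h b c (rep φ.h a b u) := rep_comp a b c hb
  have h4 := h₂ b c (rep φ.h a b u) (rep_mem a b hb) (by rw [symm_rep a b hb]; exact hc)
    (fderiv ℝ (rep φ.h a b) u v) (fderiv ℝ (rep φ.h a b) u w)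
  rw [← h₁ a b u hu hb, ← h4, e]
  change g₃.coef c _ (fderiv ℝ (rep (fun x => ψ.h (φ.h x)) a c) u v)
    (fderiv ℝ (rep (fun x => ψ.h (φ.h x)) a c) u w) = _
  rw [h3]
  rfl

/-- two metrics with the same pull-back property agree -/
theorem IsIso.coef_eq {g₁ g₁' g₂ : Metric (EV n) M} {ψ : Dfo n M} (h : IsIso g₁ g₂ ψ)
    (h' : IsIso g₁' g₂ ψ) (a : M) {u : EV n} (hu : u ∈ (chartAt (EV n) a).target) :
    g₁.coef a u = g₁'.coef a u := by
  ext v w
  rw [← h a _ u hu (mem_chart_source _ _), ← h' a _ u hu (mem_chart_source _ _)]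

end Pull

end Vale.Agent.P207.H476
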