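import Vale.Agent.P207.H476.Flow
import Vale.Agent.P207.Q.FrSys
import Vale.Agent.P207.Q.H916.Fr8

/-!
# P207 (helper476): components in orthonormal frames; the transport equation of the pull-back
-/

open scoped Manifold ContDiff ENNReal Topology
open Bundle MeasureTheory Set Filter

noncomputable section

set_option maxSynthPendingDepth 3
set_option linter.unusedSectionVars false
set_option linter.unusedVariables false

namespace Vale.Agent.P207.H476

open Vale.Agent.P207.Q.Fl Vale.Agent.P207.Q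
open Vale.Agent.P255 (RMetric coefIn Gam Riem IsGeo Metric IsGeodesic IsGeodesicOn toMetric coefL
  trans cc chris chrisB chrisB_apply IsMetricOn two_le_infty covD)

variable {n : ℕ} {M : Type} [TopologicalSpace M] [ChartedSpace (EV n) M]
  [IsManifold 𝓘(ℝ, EV n) ∞ M]

section Comp

variable {g₀ : RMetric (EV n) M}

/-- the components of the metric `h` in the orthonormal frames of `g₀` -/
def frG (g₀ h : RMetric (EV n) M) (i j : Fin n) (f : Fr g₀) : ℝ :=
  h.inner f.1.pt (f.1.e i) (f.1.e j)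

theorem frG_eq (h : RMetric (EV n) M) (i j : Fin n) {a : M} {f : Fr g₀}
    (ha : f.pt ∈ (chartAt (EV n) a).source) :
    frG g₀ h i j f = (mt h).coef a (chF a f.1).1 ((chF a f.1).2 i) ((chF a f.1).2 j) :=
  (inner_chF h a (f := f.1) ha i j).symm

theorem frG_self (i j : Fin n) (f : Fr g₀) : frG g₀ g₀ i j f = if i = j then 1 else 0 := f.2 i j

theorem frG_symm (h : RMetric (EV n) M) (i j : Fin n) (f : Fr g₀) :
    frG g₀ h i j f = frG g₀ h j i f := h.symm _ _ _

/-- the components of the vector field `W` in the orthonormal frames of `g₀` -/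
def frW (g₀ : RMetric (EV n) M) (W : VecF n M) (m : Fin n) (f : Fr g₀) : ℝ :=
  (mt g₀).coef f.pt (chF f.pt f.1).1 (W.W f.pt (chF f.pt f.1).1) ((chF f.pt f.1).2 m)

theorem frW_eq (W : VecF n M) (m : Fin n) {a : M} {f : Fr g₀}
    (ha : f.pt ∈ (chartAt (EV n) a).source) :
    frW g₀ W m f = (mt g₀).coef a (chF a f.1).1 (W.W a (chF a f.1).1) ((chF a f.1).2 m) := by
  have h0 : f.pt ∈ (chartAt (EV n) f.pt).source := mem_chart_source _ _
  have hu : (chF f.pt f.1).1 ∈ (chartAt (EV n) f.pt).target := (chartAt (EV n) f.pt).map_source h0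
  have hs := symm_chF g₀ f.pt a f h0 ha
  have h1 := trF_chF g₀ f.pt a f h0 ha
  have h2 := (mt g₀).compat f.pt a (chF f.pt f.1).1 hu hs (W.W f.pt (chF f.pt f.1).1)
    ((chF f.pt f.1).2 m)
  have h3 := W.compat f.pt a (chF f.pt f.1).1 hu hs
  rw [h3] at h2
  have h4 : trans (EV n) f.pt a (chF f.pt f.1).1 = (chF a f.1).1 := congrArg Prod.fst h1
  have h5 : fderiv ℝ (trans (EV n) f.pt a) (chF f.pt f.1).1 ((chF f.pt f.1).2 m) =
      (chF a f.1).2 m := congrFun (congrArg Prod.snd h1) m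
  rw [h4, h5] at h2
  exact h2.symm

theorem smF_frG (h : RMetric (EV n) M) (i j : Fin n) : SmF (frG g₀ h i j) := by
  refine SmF.congr_rd (F := fun a y => (mt h).coef a (gsSt ((mt g₀).coef a) y).1
    ((gsSt ((mt g₀).coef a) y).2 i) ((gsSt ((mt g₀).coef a) y).2 j)) (fun a y hy => ?_) fun a y hy => ?_
  · rw [rd_of_mem _ hy, frG_eq h i j (frOf_pt a hy), chF_frOf a hy]
  · have h1 : ContDiffAt ℝ ∞ (gsSt ((mt g₀).coef a)) y := contDiffAt_gsSt ((mt g₀).isMetricOn a) hy
    have h2 : ContDiffAt ℝ ∞ (fun y => (mt h).coef a (gsSt ((mt g₀).coef a) y).1) y :=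
      ContDiffAt.comp (g := (mt h).coef a) y (((mt h).smooth a).contDiffAt
        ((chartAt (EV n) a).open_target.mem_nhds hy.1)) h1.fst
    have h3 : ∀ i, ContDiffAt ℝ ∞ (fun y => (gsSt ((mt g₀).coef a) y).2 i) y :=
      fun i => contDiffAt_pi.1 h1.snd i
    exact ((h2.clm_apply (h3 i)).clm_apply (h3 j)).contDiffWithinAt

theorem smF_frW (W : VecF n M) (m : Fin n) : SmF (frW g₀ W m) := by
  refine SmF.congr_rd (F := fun a y => (mt g₀).coef a (gsSt ((mt g₀).coef a) y).1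
    (W.W a (gsSt ((mt g₀).coef a) y).1) ((gsSt ((mt g₀).coef a) y).2 m)) (fun a y hy => ?_)
    fun a y hy => ?_
  · rw [rd_of_mem _ hy, frW_eq W m (frOf_pt a hy), chF_frOf a hy]
  · have h1 : ContDiffAt ℝ ∞ (gsSt ((mt g₀).coef a)) y := contDiffAt_gsSt ((mt g₀).isMetricOn a) hy
    have h2 : ContDiffAt ℝ ∞ (fun y => (mt g₀).coef a (gsSt ((mt g₀).coef a) y).1) y :=
      ContDiffAt.comp (g := (mt g₀).coef a) y (((mt g₀).smooth a).contDiffAt
        ((chartAt (EV n) a).open_target.mem_nhds hy.1)) h1.fst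
    have h3 : ContDiffAt ℝ ∞ (fun y => W.W a (gsSt ((mt g₀).coef a) y).1) y :=
      ContDiffAt.comp (g := W.W a) y ((W.smooth a).contDiffAt
        ((chartAt (EV n) a).open_target.mem_nhds hy.1)) h1.fst
    exact ((h2.clm_apply h3).clm_apply (contDiffAt_pi.1 h1.snd m)).contDiffWithinAt

end Comp

section Deriv

variable [CompactSpace M] [T2Space M] [NeZero n] {g₀ : RMetric (EV n) M} [Nonempty (Fr g₀)]

/-- the horizontal flow of the `m`-th vector -/
theorem exists_horFlow (g₀ : RMetric (EV n) M) [Nonempty (Fr g₀)] (m : Fin n) :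
    ∃ Ψ : ℝ → Fr g₀ → Fr g₀, IsHorFlow g₀ (Pi.single m 1) Ψ :=
  ⟨_, isHorFlow_flow g₀ (Pi.single m 1)⟩

theorem hasDerivAt_chF_hor {m : Fin n} {Ψ : ℝ → Fr g₀ → Fr g₀}
    (hΨ : IsHorFlow g₀ (Pi.single m 1) Ψ) {a : M} {f : Fr g₀}
    (ha : f.pt ∈ (chartAt (EV n) a).source) :
    HasDerivAt (fun r => chF a (Ψ r f).1)
      ((chF a f.1).2 m, fun c => - chris ((mt g₀).coef a) (chF a f.1).1 ((chF a f.1).2 m)
        ((chF a f.1).2 c)) 0 := by
  have h0 : Ψ 0 f = f := (hΨ f).1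
  have h1 := hΨ.isFlow.eqn a f 0 (by rw [h0]; exact ha)
  rw [h0] at h1
  have e : ∑ i, (Pi.single m (1 : ℝ) : Fin n → ℝ) i • (chF a f.1).2 i = (chF a f.1).2 m := by
    rw [Finset.sum_eq_single m]
    · simp
    · intro b _ hb
      simp [Pi.single_eq_of_ne hb]
    · simp
  have h2 : (horZ g₀ (Pi.single m 1)).Z a (chF a f.1) = ((chF a f.1).2 m, fun c =>
      - chris ((mt g₀).coef a) (chF a f.1).1 ((chF a f.1).2 m) ((chF a f.1).2 c)) := by
    rw [horZ_Z]
    unfold hF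
    rw [e]
  rw [h2] at h1
  exact h1

/-- the derivative of a component of a metric along the `m`-th horizontal field -/
theorem dZ_frG (h : RMetric (EV n) M) (m i j : Fin n) {a : M} {f : Fr g₀}
    (ha : f.pt ∈ (chartAt (EV n) a).source) :
    dZ (horZ g₀ (Pi.single m 1)) (frG g₀ h i j) f =
      fderiv ℝ ((mt h).coef a) (chF a f.1).1 ((chF a f.1).2 m) ((chF a f.1).2 i) ((chF a f.1).2 j)
      - (mt h).coef a (chF a f.1).1 (chris ((mt g₀).coef a) (chF a f.1).1 ((chF a f.1).2 m)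
          ((chF a f.1).2 i)) ((chF a f.1).2 j)
      - (mt h).coef a (chF a f.1).1 ((chF a f.1).2 i) (chris ((mt g₀).coef a) (chF a f.1).1
          ((chF a f.1).2 m) ((chF a f.1).2 j)) := by
  obtain ⟨Ψ, hΨ⟩ := exists_horFlow g₀ m
  have h0 : Ψ 0 f = f := (hΨ f).1
  have h1 := hΨ.isFlow.hasDerivAt (smF_frG (g₀ := g₀) h i j) f 0
  rw [h0] at h1
  have h2 := hasDerivAt_chF_hor hΨ ha
  have h3 : HasDerivAt (fun r => (mt h).coef a (chF a (Ψ r f).1).1)
      (fderiv ℝ ((mt h).coef a) (chF a f.1).1 ((chF a f.1).2 m)) 0 := by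
    have h4 : HasFDerivAt ((mt h).coef a) (fderiv ℝ ((mt h).coef a) (chF a f.1).1)
        (chF a (Ψ 0 f).1).1 := by
      rw [h0]
      exact (((mt h).isMetricOn a).differentiableAt ((chartAt (EV n) a).map_source ha)).hasFDerivAt
    exact HasFDerivAt.comp_hasDerivAt (l := (mt h).coef a) (f := fun r => (chF a (Ψ r f).1).1)
      (0 : ℝ) h4 h2.fst
  have h5 : ∀ c, HasDerivAt (fun r => (chF a (Ψ r f).1).2 c)
      (- chris ((mt g₀).coef a) (chF a f.1).1 ((chF a f.1).2 m) ((chF a f.1).2 c)) 0 :=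
    fun c => hasDerivAt_pi.1 h2.snd c
  have h6 := (h3.clm_apply (h5 i)).clm_apply (h5 j)
  have h7 : (fun r => frG g₀ h i j (Ψ r f)) =ᶠ[𝓝 0] fun r =>
      (mt h).coef a (chF a (Ψ r f).1).1 ((chF a (Ψ r f).1).2 i) ((chF a (Ψ r f).1).2 j) := by
    filter_upwards [hΨ.isFlow.eventually_source (a := a) (p := f) (t := 0)
      (by rw [h0]; exact ha)] with r hr
    exact frG_eq h i j hr
  rw [h1.unique (h6.congr_of_eventuallyEq h7)]
  simp only [h0, map_neg, add_apply, neg_apply]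
  ring

/-- the derivative of a component of a vector field along the `i`-th horizontal field -/
theorem dZ_frW (W : VecF n M) (i m : Fin n) {a : M} {f : Fr g₀}
    (ha : f.pt ∈ (chartAt (EV n) a).source) :
    dZ (horZ g₀ (Pi.single i 1)) (frW g₀ W m) f =
      (mt g₀).coef a (chF a f.1).1 (fderiv ℝ (W.W a) (chF a f.1).1 ((chF a f.1).2 i) +
        chris ((mt g₀).coef a) (chF a f.1).1 ((chF a f.1).2 i) (W.W a (chF a f.1).1))
        ((chF a f.1).2 m) := by
  obtain ⟨Ψ, hΨ⟩ := exists_horFlow g₀ i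
  have h0 : Ψ 0 f = f := (hΨ f).1
  have hu : (chF a f.1).1 ∈ (chartAt (EV n) a).target := (chartAt (EV n) a).map_source ha
  have h1 := hΨ.isFlow.hasDerivAt (smF_frW (g₀ := g₀) W m) f 0
  rw [h0] at h1
  have h2 := hasDerivAt_chF_hor hΨ ha
  have h2c : HasDerivAt (fun r => (chF a (Ψ r f).1).1) ((chF a f.1).2 i) 0 := h2.fst
  have h5 : HasDerivAt (fun r => (chF a (Ψ r f).1).2 m)
      (- chris ((mt g₀).coef a) (chF a f.1).1 ((chF a f.1).2 i) ((chF a f.1).2 m)) 0 :=
    hasDerivAt_pi.1 h2.snd m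
  have hW : HasDerivAt (fun r => W.W a (chF a (Ψ r f).1).1)
      (fderiv ℝ (W.W a) (chF a f.1).1 ((chF a f.1).2 i)) 0 := by
    have h4 : HasFDerivAt (W.W a) (fderiv ℝ (W.W a) (chF a f.1).1) (chF a (Ψ 0 f).1).1 := by
      rw [h0]
      exact (((W.smooth a).contDiffAt ((chartAt (EV n) a).open_target.mem_nhds hu)).differentiableAt
        (by simp)).hasFDerivAt
    exact HasFDerivAt.comp_hasDerivAt (l := W.W a) (f := fun r => (chF a (Ψ r f).1).1)
      (0 : ℝ) h4 h2c
  have h6 := ((mt g₀).isMetricOn a).hasDerivAt_inner (c := fun r => (chF a (Ψ r f).1).1)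
    (X := fun r => W.W a (chF a (Ψ r f).1).1) (Y := fun r => (chF a (Ψ r f).1).2 m) (t := 0)
    (by rw [h0]; exact hu) h2c.differentiableAt hW.differentiableAt h5.differentiableAt
  have h7 : (fun r => frW g₀ W m (Ψ r f)) =ᶠ[𝓝 0] fun r =>
      (mt g₀).coef a (chF a (Ψ r f).1).1 (W.W a (chF a (Ψ r f).1).1) ((chF a (Ψ r f).1).2 m) := by
    filter_upwards [hΨ.isFlow.eventually_source (a := a) (p := f) (t := 0)
      (by rw [h0]; exact ha)] with r hr
    exact frW_eq W m hr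
  rw [h1.unique (h6.congr_of_eventuallyEq h7)]
  simp only [covD, h5.deriv, h2c.deriv, hW.deriv, h0, neg_add_cancel, map_zero, add_zero]

/-- expansion of a vector in the frame -/
theorem sum_frame {a : M} {f : Fr g₀} (ha : f.pt ∈ (chartAt (EV n) a).source) (w : EV n) :
    ∑ m, (mt g₀).coef a (chF a f.1).1 w ((chF a f.1).2 m) • (chF a f.1).2 m = w :=
  Brk.sum_orth ((mt g₀).isMetricOn a) (p := chF a f.1) ((chartAt (EV n) a).map_source ha)
    (by simp [EV]) (orth_chF ha) w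

/-- the coordinate form of `lie_frame` -/
theorem lie_alg {E : Type} [NormedAddCommGroup E] [NormedSpace ℝ E] [FiniteDimensional ℝ E]
    {O : Set E}
    {G₀ H : E → E →L[ℝ] E →L[ℝ] ℝ} {X : E → E} (hm : IsMetricOn G₀ O) {u : E} (hu : u ∈ O)
    {e : Fin n → E} (hsum : ∀ w, ∑ m, G₀ u w (e m) • e m = w) (i j : Fin n) :
    fderiv ℝ H u (X u) (e i) (e j) + H u (fderiv ℝ X u (e i)) (e j)
        + H u (e i) (fderiv ℝ X u (e j)) =
      ∑ m, G₀ u (X u) (e m) * (fderiv ℝ H u (e m) (e i) (e j)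
        - H u (chrisB G₀ u (e m) (e i)) (e j) - H u (e i) (chrisB G₀ u (e m) (e j)))
      + ∑ m, G₀ u (fderiv ℝ X u (e i) + chrisB G₀ u (e i) (X u)) (e m) * H u (e m) (e j)
      + ∑ m, G₀ u (fderiv ℝ X u (e j) + chrisB G₀ u (e j) (X u)) (e m) * H u (e i) (e m) := by
  have key : ∀ (w : E) (L : E →L[ℝ] ℝ), ∑ m, (G₀ u w (e m)) * L (e m) = L w := by
    intro w L
    have h1 := congrArg L (hsum w)
    rw [map_sum] at h1
    simpa only [map_smul, smul_eq_mul] using h1
  have e3 := key (X u) (((fderiv ℝ H u).flip (e i)).flip (e j))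
  have e4 := key (X u) ((H u).flip (e j) ∘L (chrisB G₀ u).flip (e i))
  have e5 := key (X u) ((H u (e i)) ∘L (chrisB G₀ u).flip (e j))
  have e6 := key (fderiv ℝ X u (e i) + chrisB G₀ u (e i) (X u)) ((H u).flip (e j))
  have e7 := key (fderiv ℝ X u (e j) + chrisB G₀ u (e j) (X u)) (H u (e i))
  simp only [ContinuousLinearMap.flip_apply, ContinuousLinearMap.comp_apply] at e3 e4 e5 e6
  simp only [mul_sub, Finset.sum_sub_distrib]
  rw [e3, e4, e5, e6, e7]
  have c1 : chrisB G₀ u (e i) (X u) = chrisB G₀ u (X u) (e i) := by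
    rw [chrisB_apply, chrisB_apply]; exact hm.chris_symm hu _ _
  have c2 : chrisB G₀ u (e j) (X u) = chrisB G₀ u (X u) (e j) := by
    rw [chrisB_apply, chrisB_apply]; exact hm.chris_symm hu _ _
  rw [c1, c2, map_add, map_add, add_apply]
  ring

/-- **the Lie derivative of a metric in the orthonormal frames of `g₀`** -/
theorem lie_frame (W : VecF n M) (h : RMetric (EV n) M) (i j : Fin n) {a : M} {f : Fr g₀}
    (ha : f.pt ∈ (chartAt (EV n) a).source) :
    lieC ((mt h).coef a) (W.W a) (chF a f.1).1 ((chF a f.1).2 i) ((chF a f.1).2 j) =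
      ∑ m, frW g₀ W m f * dZ (horZ g₀ (Pi.single m 1)) (frG g₀ h i j) f
      + ∑ m, dZ (horZ g₀ (Pi.single i 1)) (frW g₀ W m) f * frG g₀ h m j f
      + ∑ m, dZ (horZ g₀ (Pi.single j 1)) (frW g₀ W m) f * frG g₀ h i m f := by
  have hu : (chF a f.1).1 ∈ (chartAt (EV n) a).target := (chartAt (EV n) a).map_source ha
  have hsum := fun w : EV n => sum_frame (g₀ := g₀) ha w
  refine (lie_alg (H := (mt h).coef a) (X := W.W a) ((mt g₀).isMetricOn a) hu hsum i j).trans ?_
  congr 1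
  · congr 1
    · refine Finset.sum_congr rfl fun m _ => ?_
      rw [dZ_frG h m i j ha, frW_eq W m ha, chrisB_apply, chrisB_apply]
    · refine Finset.sum_congr rfl fun m _ => ?_
      rw [dZ_frW W i m ha, frG_eq h m j ha, chrisB_apply]
  · refine Finset.sum_congr rfl fun m _ => ?_
    rw [dZ_frW W j m ha, frG_eq h i m ha, chrisB_apply]

/-- the components of the pull-back, in a chart -/
theorem frG_pull (g₁ : RMetric (EV n) M) (ψ : Dfo n M) (i j : Fin n) {a : M} {f : Fr g₀}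
    (ha : f.pt ∈ (chartAt (EV n) a).source) :
    frG g₀ (pull g₁ ψ) i j f =
      (pb (mt g₁) ψ).coef a (chF a f.1).1 ((chF a f.1).2 i) ((chF a f.1).2 j) := by
  exact (frG_eq _ i j ha).trans (congrArg
    (fun B : EV n →L[ℝ] EV n →L[ℝ] ℝ => B ((chF a f.1).2 i) ((chF a f.1).2 j))
    (pull_coef g₁ ψ a (u := (chF a f.1).1) ((chartAt (EV n) a).map_source ha)))

/-- **the transport equation of the pull-back by the flow of a vector field** -/
theorem hasDerivAt_frG (W : VecF n M) (g₁ : RMetric (EV n) M) (i j : Fin n) (f : Fr g₀) (t : ℝ) :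
    HasDerivAt (fun t => frG g₀ (pull g₁ (W.dfo t)) i j f)
      (∑ m, frW g₀ W m f *
          dZ (horZ g₀ (Pi.single m 1)) (frG g₀ (pull g₁ (W.dfo t)) i j) f
        + ∑ m, dZ (horZ g₀ (Pi.single i 1)) (frW g₀ W m) f * frG g₀ (pull g₁ (W.dfo t)) m j f
        + ∑ m, dZ (horZ g₀ (Pi.single j 1)) (frW g₀ W m) f * frG g₀ (pull g₁ (W.dfo t)) i m f)
      t := by
  have ha : f.pt ∈ (chartAt (EV n) f.pt).source := mem_chart_source _ _
  have hu : (chF f.pt f.1).1 ∈ (chartAt (EV n) f.pt).target := (chartAt (EV n) f.pt).map_source ha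
  rw [← lie_frame W (pull g₁ (W.dfo t)) i j ha]
  have h1 := W.hasDerivAt_pb (mt g₁) f.pt hu ((chF f.pt f.1).2 i) ((chF f.pt f.1).2 j) t
  have h2 : (fun t => frG g₀ (pull g₁ (W.dfo t)) i j f) = fun t =>
      (pb (mt g₁) (W.dfo t)).coef f.pt (chF f.pt f.1).1 ((chF f.pt f.1).2 i)
        ((chF f.pt f.1).2 j) := by
    funext s
    exact frG_pull g₁ (W.dfo s) i j ha
  rw [h2]
  refine h1.congr_deriv ?_
  have h3 : (mt (pull g₁ (W.dfo t))).coef f.pt =ᶠ[𝓝 (chF f.pt f.1).1]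
      (pb (mt g₁) (W.dfo t)).coef f.pt := by
    filter_upwards [(chartAt (EV n) f.pt).open_target.mem_nhds hu] with u' hu'
    exact pull_coef g₁ (W.dfo t) f.pt hu'
  unfold lieC
  rw [h3.fderiv_eq, h3.self_of_nhds]

/-- joint smoothness of the components of the pull-back -/
theorem map_frG (W : VecF n M) (g₁ : RMetric (EV n) M) (i j : Fin n) :
    ((Dif.lin ℝ).prod (frSys g₀).dif).Map (Dif.lin ℝ)
      (fun q : ℝ × Fr g₀ => frG g₀ (pull g₁ (W.dfo q.1)) i j q.2) := by
  intro F _ _ _ v x hv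
  have hv1 : Sm (fun y => (v y).1) x := hv.1
  have hv2 : (frSys g₀).dif.At (fun y => (v y).2) x := hv.2
  set a := (v x).2.pt with had
  have ha : (v x).2.pt ∈ (chartAt (EV n) a).source := mem_chart_source _ _
  have hcu : ContinuousAt (fun y => (v y).2) x := (frSys g₀).at_cont hv2
  have hS : ∀ᶠ y in 𝓝 x, (v y).2.pt ∈ (chartAt (EV n) a).source :=
    hcu.eventually (((chartAt (EV n) a).open_source.preimage Fr.continuous_pt).mem_nhds ha)
  filter_upwards [hS, hv1, hv2, hS.eventually_nhds] with y hy1 hy2 hy3 hy4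
  have h1 : ContDiffAt ℝ ∞ (fun z => chF a (v z).2.1) y := hy3.2 a hy1
  have hu : (chF a (v y).2.1).1 ∈ (chartAt (EV n) a).target := (chartAt (EV n) a).map_source hy1
  have h2 : ContDiffAt ℝ ∞ (fun z => (pb (mt g₁) (W.dfo (v z).1)).coef a (chF a (v z).2.1).1) y := by
    have h3 := W.smooth_pb (mt g₁) a (t := (v y).1) hu
    exact ContDiffAt.comp (g := fun q : ℝ × EV n => (pb (mt g₁) (W.dfo q.1)).coef a q.2)
      (f := fun z => ((v z).1, (chF a (v z).2.1).1)) y h3 (hy2.prodMk h1.fst)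
  have h4 : ∀ i, ContDiffAt ℝ ∞ (fun z => (chF a (v z).2.1).2 i) y :=
    fun i => contDiffAt_pi.1 h1.snd i
  refine ((h2.clm_apply (h4 i)).clm_apply (h4 j)).congr_of_eventuallyEq ?_
  filter_upwards [hy4] with z hz
  exact frG_pull g₁ (W.dfo (v z).1) i j hz

end Deriv

end Vale.Agent.P207.H476
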