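import Vale.Agent.P207.H476.Abr
import Vale.Agent.P207.H476.Iso3
import Vale.Agent.P207.H608.Nz
import Vale.Agent.P207.Fin

/-!
# P207 (helper476): multiplication of a metric by a constant
-/

open scoped Manifold ContDiff ENNReal Topology
open Bundle MeasureTheory Set Filter

noncomputable section

set_option maxSynthPendingDepth 3
set_option linter.unusedSectionVars false
set_option linter.unusedVariables false

namespace Vale.Agent.P207.H476

open Vale.Agent.P255 (RMetric coefIn Gam Riem IsGeo Metric IsGeodesic IsGeodesicOn toMetric coefL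
  trans cc chris chrisB chrisB_apply IsMetricOn two_le_infty geo)
open Vale.Agent.P207.H608 (nz nz_nz nz_pt nz_vec nz_val continuous_nz)

variable {n : ℕ} {M : Type} [TopologicalSpace M] [ChartedSpace (EV n) M]
  [IsManifold 𝓘(ℝ, EV n) ∞ M]

/-- `g₁ = c g₀` -/
def IsSc (c : ℝ) (g₀ g₁ : RMetric (EV n) M) : Prop :=
  ∀ x v w, g₁.inner x v w = c * g₀.inner x v w

/-- the coefficients multiplied by a constant -/
def smulM (c : ℝ) (hc : 0 < c) (g : Metric (EV n) M) : Metric (EV n) M where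
  coef a u := c • g.coef a u
  smooth a := (g.smooth a).const_smul c
  symm a u hu v w := by
    simp only [smul_apply, smul_eq_mul]
    rw [g.symm a u hu]
  pos a u hu v hv := by
    simp only [smul_apply, smul_eq_mul]
    exact mul_pos hc (g.pos a u hu v hv)
  compat a b u hu hb v w := by
    simp only [smul_apply, smul_eq_mul]
    rw [g.compat a b u hu hb]

/-- the metric `c g` -/
def smulR (c : ℝ) (hc : 0 < c) (g : RMetric (EV n) M) : RMetric (EV n) M := (smulM c hc (mt g)).toR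

theorem isSc_smulR {c : ℝ} (hc : 0 < c) (g : RMetric (EV n) M) : IsSc c g (smulR c hc g) := by
  intro x v w
  change c * (mt g).ip x (v : EV n) (w : EV n) = _
  rw [ip_eq]

theorem isSc_inv {c : ℝ} (hc : 0 < c) {g₀ g₁ : RMetric (EV n) M} (h : IsSc c g₀ g₁) :
    IsSc c⁻¹ g₁ g₀ := by
  intro x v w
  rw [h, ← mul_assoc, inv_mul_cancel₀ hc.ne', one_mul]

section Basic

variable {c : ℝ} {g₀ g₁ : RMetric (EV n) M}

theorem coefIn_sc (h : IsSc c g₀ g₁) (a : M) (u v w : EV n) :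
    coefIn g₁ a u v w = c * coefIn g₀ a u v w := h _ _ _

theorem coef_sc (h : IsSc c g₀ g₁) (a : M) (u : EV n) :
    (mt g₁).coef a u = c • (mt g₀).coef a u := by
  ext v w
  exact coefIn_sc h a u v w

theorem gam_sc (hc : 0 < c) (h : IsSc c g₀ g₁) (a : M) : Gam (coefIn g₁ a) = Gam (coefIn g₀ a) :=
  gam_smul hc.ne' fun u v w => h _ _ _

theorem riem_sc (hc : 0 < c) (h : IsSc c g₀ g₁) (a : M) :
    Riem (coefIn g₁ a) = Riem (coefIn g₀ a) := by
  funext u x y z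
  unfold Riem
  rw [gam_sc hc h a]

theorem chris_sc (hc : 0 < c) (h : IsSc c g₀ g₁) (a : M) {u : EV n}
    (hu : u ∈ (chartAt (EV n) a).target) (v w : EV n) :
    chris ((mt g₁).coef a) u v w = chris ((mt g₀).coef a) u v w := by
  have h1 := P255.gam_eq ((mt g₁).isMetricOn a) (F := coefIn g₁ a) (fun _ _ _ _ => rfl) hu v w
  have h2 := P255.gam_eq ((mt g₀).isMetricOn a) (F := coefIn g₀ a) (fun _ _ _ _ => rfl) hu v w
  rw [← h1, ← h2, gam_sc hc h a]

theorem negCurvature_sc (hc : 0 < c) (h : IsSc c g₀ g₁) (hN : NegCurvature g₀) :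
    NegCurvature g₁ := by
  intro a u hu v w hvw
  rw [coefIn_sc h, riem_sc hc h a]
  exact mul_neg_of_pos_of_neg hc (hN a u hu v w hvw)

theorem isGeodesic_sc (hc : 0 < c) (h : IsSc c g₀ g₁) {γ : ℝ → M} (hγ : IsGeodesic (mt g₀) γ) :
    IsGeodesic (mt g₁) γ := by
  refine ⟨hγ.cont, fun a t ht ha => ?_⟩
  obtain ⟨h1, h2, h3⟩ := hγ.eqn a t ht ha
  refine ⟨h1, h2, ?_⟩
  have h4 := chris_sc hc h a (u := cc γ a t) ((chartAt (EV n) a).map_source ha)
    (deriv (cc γ a) t) (deriv (cc γ a) t)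
  rw [h3, h4]

theorem nrm_sc (h : IsSc c g₀ g₁) (p : UT g₀) : nrm g₀ g₁ p = Real.sqrt c := by
  unfold nrm
  have h1 : (g₀.inner p.pt p.vec p.vec : ℝ) = 1 := p.2
  rw [h, h1, mul_one]

theorem nz_sc_val (h : IsSc c g₀ g₁) (p : UT g₀) : (nz g₁ p).1 =
    (⟨p.1.1, ((Real.sqrt c)⁻¹ • (p.1.2 : EV n) : EV n)⟩ : TangentBundle 𝓘(ℝ, EV n) M) := by
  rw [nz_val, nrm_sc h]
  rfl

end Basic

section Flow

variable [CompactSpace M] [T2Space M] {c : ℝ} {g₀ g₁ : RMetric (EV n) M}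
  {φ₀ : ℝ → UT g₀ → UT g₀} {φ₁ : ℝ → UT g₁ → UT g₁}

theorem stv_scale (γ : ℝ → M) (r t : ℝ) : stv (n := n) (fun s => γ (r * s)) t =
    ⟨(stv (n := n) γ (r * t)).1, (r • ((stv (n := n) γ (r * t)).2 : EV n) : EV n)⟩ := by
  unfold stv
  congr 1
  exact deriv_comp_mul_left r (cc (E := EV n) γ (γ (r * t))) t

/-- the geodesic flow of `c g₀` -/
theorem flow_sc (hc : 0 < c) (h : IsSc c g₀ g₁) (h₀ : IsGeoFlow g₀ φ₀) (h₁ : IsGeoFlow g₁ φ₁)
    (t : ℝ) (p : UT g₀) : φ₁ t (nz g₁ p) = nz g₁ (φ₀ ((Real.sqrt c)⁻¹ * t) p) := by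
  set r := (Real.sqrt c)⁻¹ with hr
  have hγ := P255.isGeodesic_geo (mt g₀) p.1.1 (p.1.2 : EV n)
  have hγ2 := isGeodesic_sc hc h (hγ.comp_mul r)
  apply Subtype.ext
  rw [h₁.val_eq t (nz g₁ p)]
  have h3 : stv (n := n) (fun s => geo (mt g₀) p.1.1 (p.1.2 : EV n) (r * s)) 0 = (nz g₁ p).1 := by
    rw [stv_scale, mul_zero, stv_geo_zero g₀ p.1, nz_sc_val h]
  have h4 := eq_geo hγ2 h3
  rw [← h4, stv_scale, ← h₀.val_eq (r * t) p, nz_sc_val h]

/-- existence of the geodesic flow of `c g₀` -/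
theorem exists_flow_sc (hc : 0 < c) (h : IsSc c g₀ g₁) (h₀ : IsGeoFlow g₀ φ₀) :
    IsGeoFlow g₁ (fun t q => nz g₁ (φ₀ ((Real.sqrt c)⁻¹ * t) (nz g₀ q))) := by
  obtain ⟨φ₁, h₁⟩ := exists_geoFlow g₁
  have e : (fun t q => nz g₁ (φ₀ ((Real.sqrt c)⁻¹ * t) (nz g₀ q))) = φ₁ := by
    funext t q
    rw [← flow_sc hc h h₀ h₁, nz_nz]
  rw [e]
  exact h₁

end Flow


section Meas

variable {c : ℝ} {g₀ g₁ : RMetric (EV n) M}

theorem sqrt_pow' (hc : 0 < c) (k : ℕ) : Real.sqrt (c ^ k) = Real.sqrt c ^ k := by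
  have h1 : c ^ k = (Real.sqrt c ^ k) ^ 2 := by
    rw [← pow_mul, mul_comm, pow_mul, Real.sq_sqrt hc.le]
  rw [h1, Real.sqrt_sq (by positivity)]

theorem dens_sc (hc : 0 < c) (h : IsSc c g₀ g₁) (a : M) (u : EV n) :
    dens g₁ a u = Real.sqrt c ^ n * dens g₀ a u := by
  unfold dens
  have e : gramE (coefL g₁ a u) = c • gramE (coefL g₀ a u) := by
    ext i j
    exact coefIn_sc h a u _ _
  rw [e, Matrix.det_smul, Fintype.card_fin, Real.sqrt_mul (pow_nonneg hc.le n), sqrt_pow' hc]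

theorem isRiemVol_sc [MeasurableSpace M] (hc : 0 < c) (h : IsSc c g₀ g₁) {μ : Measure M}
    (hμ : IsRiemVol g₀ μ) : IsRiemVol g₁ (ENNReal.ofReal (Real.sqrt c ^ n) • μ) := by
  rw [isRiemVol_iff] at hμ ⊢
  intro a s hs ha
  rw [Measure.smul_apply, smul_eq_mul, hμ a s hs ha, ← lintegral_const_mul' _ _ ENNReal.ofReal_ne_top]
  refine lintegral_congr fun u => ?_
  rw [dens_sc hc h, ENNReal.ofReal_mul (by positivity)]

theorem radial_sc (hc : 0 < c) (h : IsSc c g₀ g₁) (a : UT g₁ → ℝ) (x : M) (v : EV n) :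
    radial g₁ a x v = radial g₀ (fun p => a (nz g₁ p)) x (Real.sqrt c • v : EV n) := by
  have hs : Real.sqrt c ≠ 0 := (Real.sqrt_pos.2 hc).ne'
  unfold radial
  by_cases hv : v = 0
  · have hv' : (Real.sqrt c • v : EV n) = 0 := by rw [hv, smul_zero]
    refine (dif_pos hv).trans (Eq.symm ?_)
    exact dif_pos hv'
  · have hv' : (Real.sqrt c • v : EV n) ≠ 0 := smul_ne_zero hs hv
    refine (dif_neg hv).trans (Eq.trans ?_ (dif_neg hv').symm)
    refine congrArg a (Subtype.ext ?_)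
    rw [nz_sc_val h]
    have h1 : (g₀.inner x ((Real.sqrt c • v : EV n) : TangentSpace 𝓘(ℝ, EV n) x)
        ((Real.sqrt c • v : EV n) : TangentSpace 𝓘(ℝ, EV n) x) : ℝ) =
        g₁.inner x (v : TangentSpace 𝓘(ℝ, EV n) x) (v : TangentSpace 𝓘(ℝ, EV n) x) := by
      have h2 : (innerB g₀ x (Real.sqrt c • v) (Real.sqrt c • v) : ℝ) =
          c * innerB g₀ x v v := by
        simp only [map_smul, smul_apply, smul_eq_mul]
        rw [← mul_assoc, Real.mul_self_sqrt hc.le]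
      exact h2.trans (h x v v).symm
    change (⟨x, (Real.sqrt (g₁.inner x (v : TangentSpace 𝓘(ℝ, EV n) x)
      (v : TangentSpace 𝓘(ℝ, EV n) x)))⁻¹ • v⟩ : TangentBundle 𝓘(ℝ, EV n) M) =
      ⟨x, (Real.sqrt c)⁻¹ • ((Real.sqrt (g₀.inner x ((Real.sqrt c • v : EV n) :
        TangentSpace 𝓘(ℝ, EV n) x) ((Real.sqrt c • v : EV n) :
          TangentSpace 𝓘(ℝ, EV n) x)))⁻¹ • (Real.sqrt c • v))⟩
    rw [h1]
    congr 1
    rw [smul_comm (Real.sqrt (g₁.inner x (v : TangentSpace 𝓘(ℝ, EV n) x)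
      (v : TangentSpace 𝓘(ℝ, EV n) x)))⁻¹ (Real.sqrt c) v, inv_smul_smul₀ hs]

theorem sphAvg_sc (hc : 0 < c) (h : IsSc c g₀ g₁) (a : UT g₁ → ℝ) (x : M) :
    sphAvg g₁ a x = sphAvg g₀ (fun p => a (nz g₁ p)) x := by
  set D : EV n →L[ℝ] EV n := Real.sqrt c • ContinuousLinearMap.id ℝ (EV n) with hD
  have hDv : ∀ v, D v = Real.sqrt c • v := fun v => rfl
  have hinj : Function.Injective D := by
    intro v w hvw
    rw [hDv, hDv] at hvw
    exact smul_right_injective _ (Real.sqrt_pos.2 hc).ne' hvw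
  have e : innerB g₁ x = (innerB g₀ x).bilinearComp D D := by
    ext v w
    change innerB g₁ x v w = innerB g₀ x (Real.sqrt c • v) (Real.sqrt c • w)
    have h1 : innerB g₁ x v w = c * innerB g₀ x v w := h x v w
    rw [h1]
    simp only [map_smul, smul_apply, smul_eq_mul]
    rw [← mul_assoc, Real.mul_self_sqrt hc.le]
  rw [sphAvg_eq, sphAvg_eq, e,
    ← avgB_comp (innerB g₀ x) hinj (fun v => radial g₀ (fun p => a (nz g₁ p)) x v)]
  congr 1
  funext v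
  exact radial_sc hc h a x v

theorem isLiouville_sc [CompactSpace M] [T2Space M] [MeasurableSpace M] [BorelSpace M]
    (hc : 0 < c) (h : IsSc c g₀ g₁) {μ : Measure M} {m : Measure (UT g₀)}
    (hm : IsLiouville g₀ μ m) :
    IsLiouville g₁ (ENNReal.ofReal (Real.sqrt c ^ n) • μ) (m.map (nz g₁)) := by
  have hc' : Continuous (nz g₁ : UT g₀ → UT g₁) := continuous_nz
  have := hm.1
  refine ⟨Measure.isProbabilityMeasure_map hc'.measurable.aemeasurable, fun a ha => ?_⟩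
  have hs : Real.sqrt c ^ n ≠ 0 := pow_ne_zero _ (Real.sqrt_pos.2 hc).ne'
  rw [integral_map hc'.measurable.aemeasurable ha.measurable.aestronglyMeasurable,
    hm.2 (fun p => a (nz g₁ p)) (ha.comp hc'), integral_smul_measure, measureReal_ennreal_smul_apply,
    ENNReal.toReal_ofReal (by positivity), smul_eq_mul, mul_div_mul_left _ _ hs]
  simp only [sphAvg_sc hc h]

end Meas

section Ent

variable [CompactSpace M] [T2Space M] {c : ℝ} {g₀ g₁ : RMetric (EV n) M}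
  {φ₀ : ℝ → UT g₀ → UT g₀} {φ₁ : ℝ → UT g₁ → UT g₁}

theorem isFl (h₀ : IsGeoFlow g₀ φ₀) : Abr.IsFl φ₀ where
  cont := h₀.continuous
  zero := h₀.zero
  add := h₀.add

/-- **the topological entropy of `c g₀`** -/
theorem topEntropy_sc (hc : 0 < c) (h : IsSc c g₀ g₁) (h₀ : IsGeoFlow g₀ φ₀)
    (h₁ : IsGeoFlow g₁ φ₁) :
    topEntropy (φ₁ 1) = ENNReal.ofReal (Real.sqrt c)⁻¹ * topEntropy (φ₀ 1) := by
  have := compactSpace_UT g₀
  have hr : 0 < (Real.sqrt c)⁻¹ := inv_pos.2 (Real.sqrt_pos.2 hc)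
  rw [← Abr.topEntropy_flow (isFl h₀) hr]
  refine topEntropy_conj (T := φ₀ (Real.sqrt c)⁻¹) (S := φ₁ 1) (Ψ := nz g₁) (fun x => ?_)
    (Φ := nz g₀) nz_nz nz_nz continuous_nz continuous_nz
  rw [flow_sc hc h h₀ h₁, mul_one]

/-- **the entropy of the Liouville measure of `c g₀`** -/
theorem ksEntropy_sc (hc : 0 < c) (h : IsSc c g₀ g₁) (h₀ : IsGeoFlow g₀ φ₀)
    (h₁ : IsGeoFlow g₁ φ₁) {ν : Measure (UT g₀)} [IsProbabilityMeasure ν]
    (hν : ∀ t, MeasurePreserving (φ₀ t) ν ν) :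
    ksEntropy (ν.map (nz g₁)) (φ₁ 1) = ENNReal.ofReal (Real.sqrt c)⁻¹ * ksEntropy ν (φ₀ 1) := by
  have := compactSpace_UT g₀
  have := t2Space_UT g₀
  have := metrizableSpace_UT g₀
  let : MetricSpace (UT g₀) := TopologicalSpace.metrizableSpaceMetric (UT g₀)
  have hr : 0 < (Real.sqrt c)⁻¹ := inv_pos.2 (Real.sqrt_pos.2 hc)
  rw [← Abr.ksEntropy_flow (isFl h₀) hν hr]
  refine ksEntropy_conj (T := φ₀ (Real.sqrt c)⁻¹) (S := φ₁ 1) (Ψ := nz g₁) (fun x => ?_)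
    (Φ := nz g₀) nz_nz nz_nz continuous_nz.measurable continuous_nz.measurable
    (h₀.continuous_right _).measurable (h₁.continuous_right 1).measurable ν
  rw [flow_sc hc h h₀ h₁, mul_one]

theorem measurePreserving_sc (hc : 0 < c) (h : IsSc c g₀ g₁) (h₀ : IsGeoFlow g₀ φ₀)
    (h₁ : IsGeoFlow g₁ φ₁) {ν : Measure (UT g₀)} (hν : ∀ t, MeasurePreserving (φ₀ t) ν ν)
    (t : ℝ) : MeasurePreserving (φ₁ t) (ν.map (nz g₁)) (ν.map (nz g₁)) := by
  have hm : Measurable (nz g₁ : UT g₀ → UT g₁) := continuous_nz.measurable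
  refine ⟨(h₁.continuous_right t).measurable, ?_⟩
  rw [Measure.map_map (h₁.continuous_right t).measurable hm]
  have e : φ₁ t ∘ nz g₁ = nz g₁ ∘ φ₀ ((Real.sqrt c)⁻¹ * t) :=
    funext fun p => flow_sc hc h h₀ h₁ t p
  rw [e, ← Measure.map_map hm (h₀.continuous_right _).measurable, (hν _).map_eq]

end Ent

end Vale.Agent.P207.H476
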